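import Vale.Agent.P280.N.A01
import Vale.Agent.P280.H63W.NL
import Vale.Agent.P280.H63W.Defs
open DirectSum Vale.Agent.P280.T Vale.Agent.P280.H127

namespace Vale.Agent.P280.H63W

open Vale.Agent.P280.N

variable {r : ℕ} {R : Type} [CommRing R] [IsDomain R] [Algebra ℂ R]
  {𝒜 : ℕ × (Fin r → ℤ) → Submodule ℂ R} [GradedAlgebra 𝒜]

/-- A01. -/
theorem low_iff (H : Hyp 𝒜) (l : (Fin r → ℤ) →+ ℤ) (y : FP 𝒜) : Low l y ↔ Pos l y :=
  low_iff_pos H.hX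

/-- A02. Only the signs of `c` on the weights matter. -/
theorem exists_pos (H : Hyp 𝒜) (c : (Fin r → ℤ) →+ ℤ) (hc : ∀ μ, Wt 𝒜 μ → c μ ≠ 0) :
    ∃ y : FP 𝒜, Pos c y := by
  obtain ⟨γ, x, hx0, -, hx1, hx2, ν, hν, -⟩ := exists_lowest H.hX (H587.lexHom c) (I := ⊥)
    (by
      intro x hx i
      rw [Ideal.mem_bot] at hx
      rw [hx, decompose_zero, DirectSum.zero_apply]
      exact Submodule.zero_mem _)
    (by
      obtain ⟨z, hz⟩ := H.hX.nonempty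
      refine ⟨z, ?_, hz⟩
      intro x hx
      rw [Ideal.mem_bot] at hx
      rw [hx, map_zero])
  refine ⟨⟨x, ν, hx0, fun d m h hh hne => ?_⟩, low_pos fun d m h hh hne => ?_⟩
  · apply H587.lexHom_injective c
    rw [map_nsmul, hν]
    exact hx1 d m h hh hne
  · have h1 : h ∉ (⊥ : Ideal R).radical := by
      rintro ⟨n, hn⟩
      rw [Ideal.mem_bot] at hn
      exact hne (eq_zero_of_pow_eq_zero hn)
    have h2 := hx2 d m h hh h1
    by_contra hlt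
    push Not at hlt
    have h3 : H587.lexHom c (m - d • ν) < 0 := by
      apply H587.lexHom_neg
      rw [map_sub, map_nsmul]
      linarith
    rw [map_sub, map_nsmul, hν] at h3
    exact absurd h2 (not_le.2 (sub_neg.1 h3))

/-- A03. -/
theorem pos_unique (H : Hyp 𝒜) (c : (Fin r → ℤ) →+ ℤ) (hc : ∀ μ, Wt 𝒜 μ → c μ ≠ 0)
    {y y' : FP 𝒜} (hy : Pos c y) (hy' : Pos c y') : SamePoint 𝒜 y.q y'.q := by
  by_contra hs
  obtain ⟨a, ha⟩ : ∃ a : ℤ, ∀ χ, y.Pi χ → c χ ≤ a := by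
    obtain ⟨a, ha⟩ := ((H63W.pi_finite H y).image c).bddAbove
    exact ⟨a, fun χ hχ => ha ⟨χ, hχ, rfl⟩⟩
  obtain ⟨χ, hχ, hχ'⟩ := H587.exists_neg_of_source H.hX (l := c) (p := y.q) (μ := y.ν) (a := a)
    ⟨y.nv, y.fix, fun χ hχ => ⟨lt_of_le_of_ne (hy χ hχ) (hc χ ⟨y, hχ⟩).symm, ha χ hχ⟩⟩
    y'.nv y'.fix hs
  exact absurd (hy' χ hχ) (not_le.2 hχ')

end Vale.Agent.P280.H63W
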