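import Vale.Agent.P280.N.A05
import Vale.Agent.P280.H63W.NL
import Vale.Agent.P280.H63W.Defs
open DirectSum Vale.Agent.P280.T Vale.Agent.P280.H127

namespace Vale.Agent.P280.H63W

open Vale.Agent.P280.N

variable {r : ℕ} {R : Type} [CommRing R] [IsDomain R] [Algebra ℂ R]
  {𝒜 : ℕ × (Fin r → ℤ) → Submodule ℂ R} [GradedAlgebra 𝒜]

omit [IsDomain R] in
theorem A05.coords_key (H : Hyp 𝒜) (y : FP 𝒜) {f : R} (hf : f ∈ 𝒜 (1, y.ν)) (hf1 : y.q f = 1)
    {n : ℕ} {χ : Fin n → Fin r → ℤ} (hχ : ∀ ψ, y.Pi ψ → ∃ i, χ i = ψ) {du : Fin n → ℕ}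
    {u : Fin n → R} (hu : ∀ i, Crd y (χ i) (du i) (u i)) :
    mx y.q ≤ (Ideal.span (Set.range u) ⊔ Ideal.span {f - 1}) ⊔ mx y.q • mx y.q := by
  have := noeth H.hX
  obtain ⟨N, U, wt, G, hn⟩ := exists_params_T H.hX y.nv (fix_of_isFixed y.fix)
  obtain ⟨v, hvT, hvu, hvw, -⟩ := G.exists_dual (fix_of_isFixed y.fix) hn.le
  have hw : ∀ i, HasWeight 𝒜 y.ν (wt i) (v i) := fun i => weight_iff.mp (hvw i)
  set T := (Ideal.span (Set.range u) ⊔ Ideal.span {f - 1}) ⊔ mx y.q • mx y.q with hT
  have uniq : ∀ k l, ∀ c c' : ℂ, (c ≠ 0 ∨ c' ≠ 0) → (∀ h, c * v k h + c' * v l h = 0) →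
      k = l := by
    intro k l c c' hc h
    by_contra hkl
    have h1 := h (U k)
    have h2 := h (U l)
    rw [hvu, hvu, if_pos rfl, if_neg (Ne.symm hkl), mul_one, mul_zero, add_zero] at h1
    rw [hvu, hvu, if_pos rfl, if_neg hkl, mul_one, mul_zero, zero_add] at h2
    rcases hc with hc | hc
    · exact hc h1
    · exact hc h2
  -- one generator
  have step : ∀ (k : Fin N) (x : R), x ∈ T → y.q x = 0 → v k x ≠ 0 → (∀ l, l ≠ k → v l x = 0) →
      U k ∈ T := by
    intro k x hxT hx hk hl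
    obtain ⟨c, hc⟩ := H899.exists_coef G hx
    have hcl : ∀ l, c l = v l x := by
      intro l
      have h1 := H899.tan_sq (hvT l) hc
      rw [map_sub, map_sum, sub_eq_zero] at h1
      rw [h1]
      have h2 : ∀ i, v l (c i • U i) = if l = i then c i else 0 := by
        intro i
        rw [map_smul, hvu, smul_eq_mul, mul_ite, mul_one, mul_zero]
      simp_rw [h2]
      rw [Finset.sum_ite_eq Finset.univ l, if_pos (Finset.mem_univ l)]
    have h3 : ∑ i, c i • U i = c k • U k := by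
      refine Finset.sum_eq_single k (fun l _ hlk => ?_) fun h => absurd (Finset.mem_univ k) h
      rw [hcl, hl l hlk, zero_smul]
    rw [h3] at hc
    have hck : c k ≠ 0 := by rw [hcl]; exact hk
    have h4 : U k = algebraMap ℂ R (c k)⁻¹ * (x - (x - c k • U k)) := by
      rw [sub_sub_cancel, ← Algebra.smul_def, smul_smul, inv_mul_cancel₀ hck, one_smul]
    rw [h4]
    exact Ideal.mul_mem_left _ _ (Ideal.sub_mem _ hxT (Ideal.mem_sup_right hc))
  have hU : ∀ k, U k ∈ T := by
    intro k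
    by_cases hk : wt k = 0
    · -- the Euler direction
      have heul : ∀ l, wt l = 0 → ∃ c : ℂ, ∀ (d : ℕ) (m : Fin r → ℤ), ∀ h ∈ 𝒜 (d, m),
          v l h = c * d * y.q h := by
        intro l hl
        by_contra hcon
        push Not at hcon
        exact H.iso y.q y.ν y.nv y.fix ⟨v l, hvT l, hl ▸ hw l, hcon⟩
      have hnz : ∀ l c, (∀ (d : ℕ) (m : Fin r → ℤ), ∀ h ∈ 𝒜 (d, m), v l h = c * d * y.q h) →
          c ≠ 0 := by
        rintro l c hc rfl
        have h1 : v l (U l) = 0 := by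
          refine hom_ind' 𝒜 (P := fun x => v l x = 0) (map_zero _) (fun a b ha hb => by
            rw [map_add, ha, hb, add_zero]) ?_ (U l)
          rintro ⟨d, m⟩ x hx
          rw [hc d m x hx]
          ring
        rw [hvu, if_pos rfl] at h1
        exact one_ne_zero h1
      obtain ⟨c, hc⟩ := heul k hk
      refine step k (f - 1) (Ideal.mem_sup_left (Ideal.mem_sup_right (Ideal.subset_span rfl)))
        (by rw [map_sub, hf1, map_one, sub_self]) ?_ ?_
      · rw [map_sub, Tan.one (hvT k), hc _ _ f hf, hf1]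
        simpa using hnz k c hc
      · intro l hlk
        rw [map_sub, Tan.one (hvT l), sub_zero]
        by_contra hne
        have h1 := hw l 1 y.ν f hf hne
        have hl : wt l = 0 := by
          rw [one_smul] at h1
          exact left_eq_add.1 h1
        obtain ⟨c', hc'⟩ := heul l hl
        refine hlk (uniq l k c (-c') (Or.inl (hnz k c hc)) fun h => ?_)
        refine hom_ind' 𝒜 (P := fun x => c * v l x + -c' * v k x = 0) (by simp)
          (fun a b ha hb => by
            rw [map_add, map_add]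
            linear_combination ha + hb) ?_ h
        rintro ⟨d, m⟩ x hx
        rw [hc d m x hx, hc' d m x hx]
        ring
    · obtain ⟨j, hj⟩ := hχ (wt k) (tangentWeight_of_wt H.hX y.fix G hn hk)
      obtain ⟨huj, hqj, t, ht, htw, htne⟩ := hu j
      have hpk : TangentWeight 𝒜 y.q y.ν (wt k) := tangentWeight_of_wt H.hX y.fix G hn hk
      refine step k (u j) (Ideal.mem_sup_left (Ideal.mem_sup_left (Ideal.subset_span ⟨j, rfl⟩)))
        hqj ?_ ?_
      · rw [hj] at htw
        obtain ⟨c, c', hcc, h⟩ := H.mult y.q y.ν (wt k) y.nv y.fix hpk t (v k) ht htw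
          (hvT k) (hw k)
        intro h0
        have h1 := h (u j)
        rw [h0, mul_zero, add_zero] at h1
        rcases mul_eq_zero.1 h1 with h2 | h2
        · have h3 := h (U k)
          rw [h2, zero_mul, zero_add, hvu, if_pos rfl, mul_one] at h3
          rcases hcc with h4 | h4
          · exact h4 h2
          · exact h4 h3
        · exact htne h2
      · intro l hlk
        by_contra hne
        have h1 := hw l _ _ (u j) huj hne
        have h2 : wt l = wt k := by
          rw [← hj]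
          exact (add_left_cancel h1).symm
        obtain ⟨c, c', hcc, h⟩ := H.mult y.q y.ν (wt k) y.nv y.fix hpk (v l) (v k) (hvT l)
          (h2 ▸ hw l) (hvT k) (hw k)
        exact hlk (uniq l k c c' hcc h)
  intro x hx
  obtain ⟨c, hc⟩ := H899.exists_coef G (mem_mx.1 hx)
  have h1 : x = (x - ∑ i, c i • U i) + ∑ i, c i • U i := by ring
  rw [h1]
  refine Submodule.add_mem _ (Ideal.mem_sup_right hc) (Submodule.sum_mem _ fun i _ => ?_)
  rw [Algebra.smul_def]
  exact Ideal.mul_mem_left _ _ (hU i)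

/-- A05. Coordinates: homogeneous regular functions vanishing at `y` are combinations of any system
of coordinates. -/
theorem coords (H : Hyp 𝒜) (y : FP 𝒜) : ∃ (n : ℕ) (χ : Fin n → Fin r → ℤ),
    Function.Injective χ ∧ (∀ ψ, y.Pi ψ ↔ ∃ i, χ i = ψ) ∧
    (∀ i, ∃ d u, Crd y (χ i) d u) ∧
    ∀ (du : Fin n → ℕ) (u : Fin n → R), (∀ i, Crd y (χ i) (du i) (u i)) →
      ∀ (d : ℤ) (m : Fin r → ℤ) (x : FractionRing R), HK 𝒜 d m x → Val y.q x 0 →
        ∃ x' : Fin n → FractionRing R, (∀ i, Rg y.q (x' i) ∧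
          HK 𝒜 (d - du i) (m - (du i • y.ν + χ i)) (x' i)) ∧ x = ∑ i, iK (u i) * x' i := by
  classical
  have := noeth H.hX
  set S := (H63W.pi_finite H y).toFinset with hS
  have hmem : ∀ ψ, ψ ∈ S ↔ y.Pi ψ := fun ψ => by
    rw [hS, Set.Finite.mem_toFinset, Set.mem_ofPred_eq]
  refine ⟨S.card, fun i => (S.equivFin.symm i : Fin r → ℤ), ?_, ?_, ?_, ?_⟩
  · exact Subtype.val_injective.comp S.equivFin.symm.injective
  · intro ψ
    constructor
    · intro hψ
      exact ⟨S.equivFin ⟨ψ, (hmem ψ).2 hψ⟩, by beta_reduce; rw [Equiv.symm_apply_apply]⟩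
    · rintro ⟨i, rfl⟩
      exact (hmem _).1 (S.equivFin.symm i).2
  · intro i
    have hψ : y.Pi (S.equivFin.symm i : Fin r → ℤ) := (hmem _).1 (S.equivFin.symm i).2
    obtain ⟨v, hvT, hvw, hne⟩ := hψ
    obtain ⟨d, m, h, hh, h1⟩ := hne 0
    rw [zero_mul, zero_mul] at h1
    have h2 := hvw d m h hh h1
    subst h2
    refine ⟨d, h, hh, ?_, v, hvT, hvw, h1⟩
    by_contra h3
    have h4 := y.fix _ _ h hh h3
    exact H63W.ne_zero_of_pi H ((hmem _).1 (S.equivFin.symm i).2) (add_eq_left.1 h4)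
  · intro du u hu d m x hx hval
    obtain ⟨k, k', s, a, hs, ha, hk', hs1, e⟩ := hx.exists_den H.hX y.nv y.fix hval.rg
    have hqa : y.q a = 0 := by
      have h1 := (Val.iK (q := y.q) s).mul hval
      rw [e, mul_zero] at h1
      exact (Val.iK a).unique h1
    obtain ⟨f0, hf0, hf00⟩ := exists_deg_one_ne H.hX.gen y.nv y.fix
    obtain ⟨f, hf, hf1⟩ : ∃ f ∈ 𝒜 (1, y.ν), y.q f = 1 :=
      ⟨(y.q f0)⁻¹ • f0, Submodule.smul_mem _ _ hf0, by
        rw [map_smul, smul_eq_mul, inv_mul_cancel₀ hf00]⟩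
    obtain ⟨k2, s2, hs2, hs2q, hspan⟩ := H899.exists_r' y.fix hf hf1 (fun i => (hu i).1)
      (fun i => (hu i).2.1) (A05.coords_key H y hf hf1 (χ := fun i =>
        (S.equivFin.symm i : Fin r → ℤ)) (fun ψ hψ =>
          ⟨S.equivFin ⟨ψ, (hmem ψ).2 hψ⟩, by rw [Equiv.symm_apply_apply]⟩) hu)
    obtain ⟨b, hb, hsum⟩ := H899.span_hom (fun i => (hu i).1) (hspan _ a ha hqa)
      (SetLike.mul_mem_graded hs2 ha)
    have hq : y.q (s2 * s) ≠ 0 := by
      rw [map_mul, hs1, mul_one]
      exact hs2q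
    have hne : iK (s2 * s) ≠ 0 := iK_ne_zero (ne_zero_of_q hq)
    refine ⟨fun j => iK (b j) / iK (s2 * s), fun j => ⟨⟨b j, s2 * s, hq, mul_div_cancel₀ _ hne⟩, ?_⟩,
      ?_⟩
    · rcases hb j with ⟨⟨kd, km⟩, hk, hbj⟩ | hbj
      · have h1 := congrArg Prod.fst hk
        have h2 := congrArg Prod.snd hk
        simp only [Prod.fst_add, Prod.snd_add] at h1 h2
        have hg : s2 * s ∈ 𝒜 (k2 + k, (k2 + k) • y.ν) := by
          have := SetLike.mul_mem_graded hs2 hs
          rwa [Prod.mk_add_mk, ← add_smul] at this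
        refine ⟨kd, k2 + k, km, (k2 + k) • y.ν, b j, hbj, s2 * s, hg, ne_zero_of_q hq,
          mul_div_cancel₀ _ hne, ?_, ?_⟩
        · push_cast
          omega
        · have h3 : km = k2 • y.ν + (m + k • y.ν) - (du j • y.ν + (S.equivFin.symm j : Fin r → ℤ)) := by
            rw [← h2]
            abel
          rw [h3, add_smul]
          abel
      · beta_reduce
        rw [hbj, iK_zero, zero_div]
        exact A05.hk_zero hf hf1 _ _
    · have h1 : iK (s2 * s) * x = ∑ j, iK (u j) * iK (b j) := by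
        rw [iK_mul, mul_assoc, e, ← iK_mul, hsum, iK_sum]
        exact Finset.sum_congr rfl fun j _ => iK_mul _ _
      apply mul_left_cancel₀ hne
      rw [h1, Finset.mul_sum]
      refine Finset.sum_congr rfl fun j _ => ?_
      field_simp

end Vale.Agent.P280.H63W
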