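import Vale.Agent.P280.H490.Along
import Vale.Agent.P280.H63W.Rev
import Vale.Agent.P280.H63W.Defs
open DirectSum Vale.Agent.P280.T Vale.Agent.P280.H127

namespace Vale.Agent.P280.H63W

open Vale.Agent.P280.N Vale.Agent.P280.H490

open Vale.Agent.P280.N

variable {r : ℕ} {R : Type} [CommRing R] [IsDomain R] [Algebra ℂ R]
  {𝒜 : ℕ × (Fin r → ℤ) → Submodule ℂ R} [GradedAlgebra 𝒜]

/-- A derivation along the curve, in the direction of the curve. -/
theorem der_dir (H : Hyp 𝒜) {y y' : FP 𝒜} {a : Fin r → ℤ} {n : ℕ}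
    {φ : R →ₐ[ℂ] Polynomial ℂ} (hφ : Curve y y' a n φ) {δ : R →ₗ[ℂ] Polynomial ℂ}
    (hδ : ∀ x z, δ (x * z) = φ x * δ z + φ z * δ x)
    (hdeg : ∀ d m, ∀ h ∈ 𝒜 (d, m), δ h ≠ 0 → ∃ i : ℕ, m = d • y.ν + i • a + a ∧
        ∃ c : ℂ, δ h = Polynomial.C c * Polynomial.X ^ i)
    (hno : ∀ k : ℕ, k ≠ 0 → ¬ y.Pi (a + (k : ℤ) • a)) :
    ∃ c : ℂ, ∀ x, δ x = Polynomial.C c * Polynomial.derivative (φ x) := by
  classical
  have ha := ne_zero_of_curve H hφ
  let δ' : R →ₗ[ℂ] Polynomial ℂ := Polynomial.derivative.comp φ.toLinearMap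
  have hδ'a : ∀ x, δ' x = Polynomial.derivative (φ x) := fun x => rfl
  have hδ' : ∀ x z, δ' (x * z) = φ x * δ' z + φ z * δ' x := by
    intro x z
    rw [hδ'a, hδ'a, hδ'a, map_mul, Polynomial.derivative_mul]
    ring
  have hdeg' : ∀ d m, ∀ h ∈ 𝒜 (d, m), δ' h ≠ 0 → ∃ i : ℕ, m = d • y.ν + i • a + a ∧
      ∃ c : ℂ, δ' h = Polynomial.C c * Polynomial.X ^ i := by
    intro d m h hh hne
    have h0 : φ h ≠ 0 := fun h0 => hne (by rw [hδ'a, h0, Polynomial.derivative_zero])
    obtain ⟨i, -, hm, c, hc⟩ := hφ.hom d m h hh h0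
    rcases i with _ | i
    · exfalso
      apply hne
      rw [hδ'a, hc, pow_zero, mul_one, Polynomial.derivative_C]
    · refine ⟨i, by rw [hm, succ_nsmul, add_assoc], c * ((i : ℂ) + 1), ?_⟩
      rw [hδ'a, hc, Polynomial.derivative_C_mul_X_pow]
      push_cast
      rfl
  have hk0 : ∀ (δ : R →ₗ[ℂ] Polynomial ℂ), ∀ h, ∀ i < 0, (δ h).coeff i = 0 :=
    fun _ _ _ hi => absurd hi (Nat.not_lt_zero _)
  have ht := along_tangent hφ.ev hδ (hk0 δ)
  have ht' := along_tangent hφ.ev hδ' (hk0 δ')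
  have hw := along_weight (y := y) (a := a) (μ := a) hdeg 0
  have hw' := along_weight (y := y) (a := a) (μ := a) hdeg' 0
  rw [Nat.cast_zero, zero_smul, add_zero] at hw hw'
  obtain ⟨d1, h1, -, hh1⟩ := hφ.un
  have hcoeff : ∀ x, (δ' x).coeff 0 = (φ x).coeff 1 := by
    intro x
    rw [hδ'a, Polynomial.coeff_derivative]
    simp
  obtain ⟨c, c', hcc, hlin⟩ := H.mult y.q y.ν a y.nv y.fix hφ.ya _ _ ht hw ht' hw'
  have hc : c ≠ 0 := by
    intro hc
    subst hc
    rcases hcc with h | h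
    · exact h rfl
    · have h3 := hlin h1
      rw [zero_mul, zero_add, LinearMap.comp_apply, Polynomial.lcoeff_apply, hcoeff] at h3
      exact hh1 ((mul_eq_zero.1 h3).resolve_left h)
  obtain ⟨b, hb⟩ : ∃ b : ℂ, b = -(c' / c) := ⟨_, rfl⟩
  have hlin' : ∀ x, (δ x).coeff 0 = b * (δ' x).coeff 0 := by
    intro x
    have h3 := hlin x
    simp only [LinearMap.comp_apply, Polynomial.lcoeff_apply] at h3
    rw [hb]
    field_simp
    linear_combination h3
  refine ⟨b, ?_⟩
  let ε : R →ₗ[ℂ] Polynomial ℂ := δ - b • δ'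
  have hε : ∀ x, ε x = δ x - Polynomial.C b * δ' x := fun x => by
    rw [← Polynomial.smul_eq_C_mul]
    rfl
  have hεδ : ∀ x z, ε (x * z) = φ x * ε z + φ z * ε x := by
    intro x z
    rw [hε, hε, hε, hδ, hδ']
    ring
  have hεdeg : ∀ d m, ∀ h ∈ 𝒜 (d, m), ε h ≠ 0 → ∃ i : ℕ, m = d • y.ν + i • a + a ∧
      ∃ c : ℂ, ε h = Polynomial.C c * Polynomial.X ^ i := by
    intro d m h hh hne
    by_cases h1 : δ h = 0
    · by_cases h2 : δ' h = 0
      · exfalso
        apply hne
        rw [hε, h1, h2, mul_zero, sub_zero]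
      · obtain ⟨i, hi, e, he⟩ := hdeg' d m h hh h2
        refine ⟨i, hi, -(b * e), ?_⟩
        rw [hε, h1, he, Polynomial.C_neg, Polynomial.C_mul]
        ring
    · obtain ⟨i, hi, e, he⟩ := hdeg d m h hh h1
      by_cases h2 : δ' h = 0
      · refine ⟨i, hi, e, ?_⟩
        rw [hε, h2, mul_zero, sub_zero, he]
      · obtain ⟨i', hi', e', he'⟩ := hdeg' d m h hh h2
        have hii : i = i' := by
          rw [hi] at hi'
          exact nsmul_inj ha (add_left_cancel (add_right_cancel hi'))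
        refine ⟨i, hi, e - b * e', ?_⟩
        rw [hε, he, he', hii, Polynomial.C_sub, Polynomial.C_mul]
        ring
  have hzero : ∀ x, ε x = 0 := by
    by_contra hcon
    push Not at hcon
    have hex : ∃ k, ∃ h, (ε h).coeff k ≠ 0 := by
      obtain ⟨h, hh⟩ := hcon
      by_contra hcon
      push Not at hcon
      exact hh (Polynomial.ext fun k => by rw [hcon k h, Polynomial.coeff_zero])
    have hk := Nat.find_spec hex
    have hmin : ∀ h, ∀ i < Nat.find hex, (ε h).coeff i = 0 := by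
      intro h i hi
      have := Nat.find_min hex hi
      push Not at this
      exact this h
    generalize Nat.find hex = k at hk hmin
    obtain ⟨h2, hh2⟩ := hk
    have hk1 : k ≠ 0 := by
      rintro rfl
      apply hh2
      rw [hε, Polynomial.coeff_sub, Polynomial.coeff_C_mul, hlin', sub_self]
    have hne0 : a + (k : ℤ) • a ≠ 0 := by
      intro h0
      have h3 : ((k : ℤ) + 1) • a = 0 := by
        rw [add_smul, one_smul, add_comm]
        exact h0
      rcases smul_eq_zero.1 h3 with h4 | h4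
      · omega
      · exact ha h4
    have hpi : y.Pi (a + (k : ℤ) • a) := tangentWeight_of_ne y.fix hne0
      (along_tangent hφ.ev hεδ hmin) (along_weight hεdeg k) (by
        intro h0
        exact hh2 (LinearMap.congr_fun h0 h2))
    exact hno k hk1 hpi
  intro x
  have := hzero x
  rw [hε] at this
  exact sub_eq_zero.1 this

end Vale.Agent.P280.H63W
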