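import Vale.Agent.P280.N.C03
import Vale.Agent.P280.H63W.C01
import Vale.Agent.P280.H63W.Defs
open DirectSum Vale.Agent.P280.T Vale.Agent.P280.H127

namespace Vale.Agent.P280.H63W

open Vale.Agent.P280.N

variable {r : ℕ} {R : Type} [CommRing R] [IsDomain R] [Algebra ℂ R]
  {𝒜 : ℕ × (Fin r → ℤ) → Submodule ℂ R} [GradedAlgebra 𝒜]

/-- Weights are not zero. -/
theorem c03_wt_ne_zero (H : Hyp 𝒜) {ω : Fin r → ℤ} (hω : Wt 𝒜 ω) : ω ≠ 0 := by
  rintro rfl
  obtain ⟨y, hy⟩ := hω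
  exact H.iso y.q y.ν y.nv y.fix hy

/-- The values of a functional at the weights are bounded. -/
theorem c03_bound (H : Hyp 𝒜) (g : (Fin r → ℤ) →+ ℤ) :
    ∃ K : ℤ, 0 ≤ K ∧ ∀ ω, Wt 𝒜 ω → |g ω| ≤ K := by
  obtain ⟨K, hK0, hK⟩ := H587.exists_bound (S := H587.wts 𝒜) (finite_weights H.hX) g
  refine ⟨K, hK0, ?_⟩
  rintro ω ⟨y, hy⟩
  obtain ⟨h1, h2⟩ := H587.tangentWeight_mem H.hX y.nv y.fix hy
  have := hK _ h2 _ h1
  rwa [add_sub_cancel_left] at this

/-- A perturbation of a functional exposing `χ` exposes `χ`. -/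
theorem c03_perturb (H : Hyp 𝒜) {χ : Fin r → ℤ} {l : (Fin r → ℤ) →+ ℤ} (hw : Wt 𝒜 χ)
    (hpos : 0 < l χ) (hmax : ∀ ω, Wt 𝒜 ω → ω ≠ χ → l ω < l χ) (g : (Fin r → ℤ) →+ ℤ) :
    ∃ M : ℤ, 0 < M ∧ 0 < (M • l + g) χ ∧
      (∀ ω, Wt 𝒜 ω → ω ≠ χ → (M • l + g) ω < (M • l + g) χ) ∧
      (∀ ω, Wt 𝒜 ω → g ω ≠ 0 → (M • l + g) ω ≠ 0) := by
  obtain ⟨K, hK0, hK⟩ := c03_bound H g
  have hl' : ∀ m, ((2 * K + 1) • l + g) m = (2 * K + 1) * l m + g m := fun m => by
    change (2 * K + 1) • l m + g m = _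
    rw [smul_eq_mul]
  have h1 := abs_le.1 (hK χ hw)
  refine ⟨2 * K + 1, by omega, ?_, ?_, ?_⟩
  · rw [hl']
    nlinarith
  · intro ω hω hne
    have h2 := abs_le.1 (hK ω hω)
    have h3 := hmax ω hω hne
    rw [hl', hl']
    nlinarith
  · intro ω hω hne
    have h2 := abs_le.1 (hK ω hω)
    rw [hl']
    intro h4
    rcases lt_trichotomy (l ω) 0 with h5 | h5 | h5
    · nlinarith
    · rw [h5, mul_zero, zero_add] at h4
      exact hne h4
    · nlinarith

/-- The opposite of a vertex is a vertex. -/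
theorem c03_vx_neg (H : Hyp 𝒜) {χ : Fin r → ℤ} (hχ : Vx 𝒜 χ) : Vx 𝒜 (-χ) := by
  obtain ⟨hw, l, hpos, hmax⟩ := hχ
  have hle : ∀ (l' : (Fin r → ℤ) →+ ℤ), (∀ ω, Wt 𝒜 ω → ω ≠ χ → l' ω < l' χ) →
      ∀ ω, Wt 𝒜 ω → l' ω ≤ l' χ := by
    intro l' h ω hω
    by_cases hne : ω = χ
    · rw [hne]
    · exact (h ω hω hne).le
  -- the only weight with the value `- l χ`
  have hstrict : ∀ ω, Wt 𝒜 ω → l ω ≤ - l χ → ω = -χ := by
    intro ω hω hl
    have h0 : l ω = - l χ := le_antisymm hl (neg_max H l hpos (hle l hmax) ω hω)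
    have key : ∀ g : (Fin r → ℤ) →+ ℤ, 0 ≤ g (ω + χ) := by
      intro g
      obtain ⟨M, hM, h1, h2, -⟩ := c03_perturb H hw hpos hmax g
      have h3 := neg_max H (M • l + g) h1 (hle _ h2) ω hω
      have hl' : ∀ m, (M • l + g) m = M * l m + g m := fun m => by
        change M • l m + g m = _
        rw [smul_eq_mul]
      rw [hl', hl', h0] at h3
      rw [map_add]
      linarith
    have key' : ∀ g : (Fin r → ℤ) →+ ℤ, g (ω + χ) = 0 := by
      intro g
      have h1 := key g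
      have h2 := key (-g)
      have h3 : (-g) (ω + χ) = - g (ω + χ) := rfl
      omega
    have h4 : ω + χ = 0 := by
      funext i
      exact key' (Pi.evalAddMonoidHom (fun _ : Fin r => ℤ) i)
    exact eq_neg_of_add_eq_zero_left h4
  refine ⟨?_, -l, ?_, ?_⟩
  · by_contra hcon
    have h1 : ∀ ω, Wt 𝒜 ω → (-((2 : ℤ) • l)) ω ≤ 2 * l χ - 1 := by
      intro ω hω
      have h2 : (-((2 : ℤ) • l)) ω = - (2 * l ω) := by
        change - ((2 : ℤ) • l ω) = _
        rw [smul_eq_mul]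
      have h3 : ¬ l ω ≤ - l χ := by
        intro h4
        have h5 := hstrict ω hω h4
        rw [h5] at hω
        exact hcon hω
      omega
    have h2 := neg_max H (-((2 : ℤ) • l)) (by omega) h1 χ hw
    have h3 : (-((2 : ℤ) • l)) χ = - (2 * l χ) := by
      change - ((2 : ℤ) • l χ) = _
      rw [smul_eq_mul]
    omega
  · change 0 < - l (-χ)
    rw [map_neg, neg_neg]
    exact hpos
  · intro ω hω hne
    change - l ω < - l (-χ)
    rw [map_neg, neg_neg]
    by_contra h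
    exact hne (hstrict ω hω (by omega))

/-- A field of a vertex weight which vanishes at the source is zero. -/
theorem c03_field_zero (H : Hyp 𝒜) {χ : Fin r → ℤ} {c : (Fin r → ℤ) →+ ℤ}
    (hc : ∀ μ, Wt 𝒜 μ → c μ ≠ 0) (hpos : 0 < c χ)
    (hmax : ∀ ω, Wt 𝒜 ω → ω ≠ χ → c ω < c χ) {y : FP 𝒜} (hy : Pos c y) {D : VF R}
    (hD : Glob D) (hDv : HV 𝒜 χ D) (h0 : ValV y.q D 0) : D = 0 := by
  obtain ⟨n, ψ, hinj, hpi, hcrd, hgen⟩ := coords H y
  choose du u hu using hcrd
  have hpsi : ∀ i, 0 < c (ψ i) := by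
    intro i
    have h1 : y.Pi (ψ i) := (hpi _).2 ⟨i, rfl⟩
    exact lt_of_le_of_ne (hy _ h1) (Ne.symm (hc _ ⟨y, h1⟩))
  obtain ⟨f0, hf0, hf1⟩ := exists_deg_one_ne H.hX.gen y.nv y.fix
  -- the function of degree one
  set F : FractionRing R := (y.q f0)⁻¹ • iK f0 with hF
  have hFH : HK 𝒜 1 y.ν F := (HK.ofR hf0).smul _
  have hFV : Val y.q F 1 := by
    have h1 := (Val.iK (q := y.q) f0).smul (y.q f0)⁻¹
    rwa [inv_mul_cancel₀ hf1] at h1
  have hF0 : F ≠ 0 := hFV.ne_zero one_ne_zero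
  -- fields of weight `χ` lower the weights
  have hrg : ∀ {x : FractionRing R}, Rg y.q x → Rg y.q (D x) := fun hx => hD.rgV.rg hx
  have hDF : D F = 0 := by
    refine lf1 H y c hy (hDv.app hFH) (hrg hFV.rg) ?_
    rw [map_sub, one_mul]
    linarith
  -- functions of weight zero which vanish at the point vanish
  have hzero : ∀ {d : ℤ} {x : FractionRing R}, HK 𝒜 d (d • y.ν) x → Val y.q x 0 → x = 0 := by
    intro d x hx hv
    obtain ⟨x', hx', hsum⟩ := hgen du u hu d _ x hx hv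
    rw [hsum]
    refine Finset.sum_eq_zero fun i _ => ?_
    have h1 : x' i = 0 := by
      refine lf1 H y c hy (hx' i).2 (hx' i).1 ?_
      have h2 := hpsi i
      rw [map_sub, map_add, map_nsmul, map_zsmul, smul_eq_mul, nsmul_eq_mul]
      linarith
    rw [h1, mul_zero]
  have hDu : ∀ i, D (iK (u i)) = 0 := by
    intro i
    have hui : HK 𝒜 (du i) (du i • y.ν + ψ i) (iK (u i)) := HK.ofR (hu i).1
    by_cases hi : ψ i = χ
    · refine hzero (d := du i) ((hDv.app hui).cast rfl ?_) (h0 (u i))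
      rw [hi, add_sub_cancel_right, natCast_zsmul]
    · refine lf1 H y c hy (hDv.app hui) (hrg (Rg.iK _)) ?_
      have h2 := hmax (ψ i) ⟨y, (hpi _).2 ⟨i, rfl⟩⟩ hi
      rw [map_sub, map_add, map_nsmul, nsmul_eq_mul]
      linarith
  -- the induction
  have key : ∀ (k : ℕ) (d : ℤ) (m : Fin r → ℤ) (x : FractionRing R), HK 𝒜 d m x → Rg y.q x →
      c m - d * c y.ν < k → D x = 0 := by
    intro k
    induction k with
    | zero =>
      intro d m x hx hr hk
      have h1 : x = 0 := lf1 H y c hy hx hr (by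
        push_cast at hk
        linarith)
      rw [h1, map_zero]
    | succ k ih =>
      intro d m x hx hr hk
      obtain ⟨c0, hc0⟩ := hr.val
      -- subtract the value
      obtain ⟨z, hzH, hzV, hzD⟩ : ∃ z : FractionRing R, HK 𝒜 d m z ∧ Val y.q z 0 ∧ D z = D x := by
        by_cases h1 : c0 = 0
        · exact ⟨x, hx, by rw [← h1]; exact hc0, rfl⟩
        · have h2 := hx.weight H.hX y.nv y.fix hc0 h1
          have h3 : HK 𝒜 d (d • y.ν) (F ^ d) := by
            rcases Int.eq_nat_or_neg d with ⟨e, rfl | rfl⟩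
            · rw [zpow_natCast]
              clear * - hFH
              induction e with
              | zero =>
                rw [pow_zero, Nat.cast_zero, zero_smul]
                exact HK.one
              | succ e ih =>
                rw [pow_succ]
                exact (ih.mul hFH).cast (by push_cast; ring) (by push_cast; rw [add_smul, one_smul])
            · rw [zpow_neg, zpow_natCast]
              have h4 : HK 𝒜 e ((e : ℤ) • y.ν) (F ^ e) := by
                clear * - hFH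
                induction e with
                | zero =>
                  rw [pow_zero, Nat.cast_zero, zero_smul]
                  exact HK.one
                | succ e ih =>
                  rw [pow_succ]
                  exact (ih.mul hFH).cast (by push_cast; ring)
                    (by push_cast; rw [add_smul, one_smul])
              exact (h4.inv (pow_ne_zero _ hF0)).cast rfl (by rw [neg_smul])
          have h5 : Val y.q (F ^ d) 1 := by
            rcases Int.eq_nat_or_neg d with ⟨e, rfl | rfl⟩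
            · rw [zpow_natCast]
              have := hFV.pow e
              rwa [one_pow] at this
            · rw [zpow_neg, zpow_natCast]
              have := (hFV.pow e).inv (by rw [one_pow]; exact one_ne_zero)
              rwa [one_pow, inv_one] at this
          refine ⟨x - c0 • F ^ d, hx.sub ?_, ?_, ?_⟩
          · rw [h2]
            exact h3.smul c0
          · have h6 := hc0.sub (h5.smul c0)
            rwa [mul_one, sub_self] at h6
          · have h7 : D (F ^ d) = 0 := by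
              rw [Derivation.leibniz_zpow, hDF, smul_eq_mul, mul_zero]
              exact zsmul_zero d
            rw [map_sub, Derivation.map_smul, h7, smul_zero, sub_zero]
      rw [← hzD]
      obtain ⟨x', hx', hsum⟩ := hgen du u hu d m z hzH hzV
      rw [hsum, map_sum]
      refine Finset.sum_eq_zero fun i _ => ?_
      rw [Derivation.leibniz, hDu, smul_zero, add_zero]
      have h1 : D (x' i) = 0 := by
        refine ih _ _ _ (hx' i).2 (hx' i).1 ?_
        have h2 := hpsi i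
        rw [map_sub, map_add, map_nsmul, nsmul_eq_mul]
        push_cast at hk
        linarith
      rw [h1, smul_zero]
  refine vf_eq_zero_hom (𝒜 := 𝒜) fun d m a ha => ?_
  obtain ⟨k, hk⟩ : ∃ k : ℕ, c m - d * c y.ν < k := by
    refine ⟨(c m - d * c y.ν).toNat + 1, ?_⟩
    have := Int.self_le_toNat (c m - d * c y.ν)
    push_cast
    linarith
  exact key k d m _ (HK.ofR ha) (Rg.iK a) hk

/-- The field of a vertex. -/
theorem c03_exists (H : Hyp 𝒜) {χ : Fin r → ℤ} (hχ : Vx 𝒜 χ) :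
    ∃ E : VF R, Glob E ∧ HV 𝒜 χ E ∧ E ≠ 0 ∧ (∀ y : FP 𝒜, y.Pi χ → ¬ ValV y.q E 0) ∧
      (∀ D : VF R, Glob D → HV 𝒜 χ D → ∃ k : ℂ, D = k • E) := by
  have hχ0 : χ ≠ 0 := c03_wt_ne_zero H hχ.1
  obtain ⟨⟨x, hx⟩, l, hpos, hmax⟩ := hχ
  -- lifting
  have hL : Liftable 𝒜 χ := by
    obtain ⟨g, hg⟩ := H587.exists_generic (finite_weights H.hX)
    obtain ⟨l', h1, h2, h3⟩ := H93.exists_generic_max H.hX g hg x.nv x.fix hx l hpos
      (fun y ξ ω hy0 hy hω hne => hmax ω ⟨⟨y, ξ, hy0, hy⟩, hω⟩ hne)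
    exact liftable_of_isExtremal H.hX H.hN (H93.extremal_pm H.hX H.iso g hg h1 h2 h3).1
  have hlift : ∀ y : FP 𝒜, y.Pi χ → ∃ D : VF R, Glob D ∧ HV 𝒜 χ D ∧ ¬ ValV y.q D 0 := by
    intro y hy
    obtain ⟨v, hv, hvw, hne⟩ := id hy
    obtain ⟨D, hD, hDv⟩ := hL y.q y.ν y.nv y.fix hy v hv hvw
    refine ⟨toVF D, toVF_glob D, hv_toVF hD, fun h0 => ?_⟩
    obtain ⟨d, m, h, hh, h1⟩ := hne 0
    apply h1
    rw [zero_mul, zero_mul]
    have h2 := h0 h
    rw [toVF_iK] at h2
    have h3 := (Val.iK (q := y.q) (D h)).unique h2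
    rw [← hDv h, h3]
    rfl
  -- the source
  obtain ⟨g, hg⟩ := H587.exists_generic (S := H587.wts 𝒜) (finite_weights H.hX)
  have hg0 : ∀ ω, Wt 𝒜 ω → g ω ≠ 0 := by
    rintro ω ⟨y, hy⟩ h0
    obtain ⟨h1, h2⟩ := H587.tangentWeight_mem H.hX y.nv y.fix hy
    have h3 : g (y.ν + ω) = g y.ν := by rw [map_add, h0, add_zero]
    have h4 := hg h2 h1 h3
    exact c03_wt_ne_zero H ⟨y, hy⟩ (by
      have : y.ν + ω = y.ν + 0 := by rw [h4, add_zero]
      exact add_left_cancel this)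
  obtain ⟨M, hM, hc1, hc2, hc3⟩ := c03_perturb H ⟨x, hx⟩ hpos hmax g
  have hc : ∀ μ, Wt 𝒜 μ → (M • l + g) μ ≠ 0 := fun μ hμ => hc3 μ hμ (hg0 μ hμ)
  obtain ⟨p, hp⟩ := exists_pos H (M • l + g) hc
  have huniq : ∀ D : VF R, Glob D → HV 𝒜 χ D → ValV p.q D 0 → D = 0 := fun D hD hDv h0 =>
    c03_field_zero H hc hc1 hc2 hp hD hDv h0
  obtain ⟨E, hE, hEv, hEx⟩ := hlift x hx
  have hE0 : E ≠ 0 := by
    rintro rfl
    exact hEx ValV.zero
  have hpi : p.Pi χ := by
    by_contra hcon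
    exact hE0 (huniq E hE hEv (val_zero_of_not_pi H.hX hχ0 hEv hE.rgV hcon))
  have hdim : ∀ D : VF R, Glob D → HV 𝒜 χ D → ∃ k : ℂ, D = k • E := by
    intro D hD hDv
    obtain ⟨t, ht⟩ := hE.rgV.val (q := p.q)
    obtain ⟨s, hs⟩ := hD.rgV.val (q := p.q)
    obtain ⟨a, b, hab, h1⟩ := H.mult p.q p.ν χ p.nv p.fix hpi t s ht.isTangent
      (hEv.hasWeight H.hX p.nv p.fix ht) hs.isTangent (hDv.hasWeight H.hX p.nv p.fix hs)
    have h2 : a • E + b • D = 0 := by
      refine huniq _ ((hE.smulC a).add (hD.smulC b)) ((hEv.smulC a).add (hDv.smulC b)) ?_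
      have h3 := (ht.smulC a).add (hs.smulC b)
      have h4 : a • t + b • s = 0 := LinearMap.ext fun h => h1 h
      rwa [h4] at h3
    have hb : b ≠ 0 := by
      rintro rfl
      rw [zero_smul, add_zero] at h2
      rcases smul_eq_zero.1 h2 with h3 | h3
      · exact hab.elim (fun h => h h3) fun h => h rfl
      · exact hE0 h3
    refine ⟨-(b⁻¹ * a), ?_⟩
    have h3 : D = -(b⁻¹ • a • E) := by
      rw [← smul_right_injective _ hb |>.eq_iff (a := D)]
      show b • D = b • -(b⁻¹ • a • E)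
      rw [smul_neg, smul_smul b, mul_inv_cancel₀ hb, one_smul]
      exact eq_neg_of_add_eq_zero_right h2
    rw [h3, smul_smul]
    exact (neg_smul _ _).symm
  refine ⟨E, hE, hEv, hE0, fun y hy h0 => ?_, hdim⟩
  obtain ⟨D, hD, hDv, hne⟩ := hlift y hy
  obtain ⟨k, rfl⟩ := hdim D hD hDv
  apply hne
  have := h0.smulC k
  rwa [smul_zero] at this

/-- C03. The fields of a vertex and of its opposite. -/
theorem vertex_fields (H : Hyp 𝒜) {χ : Fin r → ℤ} (hχ : Vx 𝒜 χ) :
    ∃ E F : VF R, Glob E ∧ Glob F ∧ HV 𝒜 χ E ∧ HV 𝒜 (-χ) F ∧ E ≠ 0 ∧ F ≠ 0 ∧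
      (∀ y : FP 𝒜, y.Pi χ → ¬ ValV y.q E 0) ∧ (∀ y : FP 𝒜, y.Pi (-χ) → ¬ ValV y.q F 0) ∧
      (∀ D : VF R, Glob D → HV 𝒜 χ D → ∃ k : ℂ, D = k • E) := by
  obtain ⟨E, h1, h2, h3, h4, h5⟩ := c03_exists H hχ
  obtain ⟨F, k1, k2, k3, k4, -⟩ := c03_exists H (c03_vx_neg H hχ)
  exact ⟨E, F, h1, k1, h2, k2, h3, k3, h4, k4, h5⟩

end Vale.Agent.P280.H63W
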