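import Vale.Agent.P280.H63W.Curve
import Vale.Agent.P280.H63W.Along

/-! P280, helper63, route W: no opposite weights at a point. -/

open DirectSum Vale.Agent.P280.T Vale.Agent.P280.H127

namespace Vale.Agent.P280.H63W

open Vale.Agent.P280.N Vale.Agent.P280.H490

variable {r : ℕ} {R : Type} [CommRing R] [IsDomain R] [Algebra ℂ R]
  {𝒜 : ℕ × (Fin r → ℤ) → Submodule ℂ R}

/-- On the ray of `χ` there is at most one tangent weight at each point. -/
def Sep (𝒜 : ℕ × (Fin r → ℤ) → Submodule ℂ R) (χ : Fin r → ℤ) : Prop :=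
  ∀ (z : FP 𝒜) (j j' : ℕ), 1 ≤ j → 1 ≤ j' → z.Pi (j • χ) → z.Pi (j' • χ) → j = j'

theorem sep_of_vx {χ : Fin r → ℤ} (h : Vx 𝒜 χ) : Sep 𝒜 χ := by
  obtain ⟨-, l, hl, hm⟩ := h
  have key : ∀ (z : FP 𝒜) (j : ℕ), 1 ≤ j → z.Pi (j • χ) → j = 1 := by
    intro z j hj hz
    by_contra hne
    have hχ : j • χ ≠ χ := by
      intro h1
      have h2 := congrArg l h1
      rw [map_nsmul, nsmul_eq_mul] at h2
      have h3 : (2 : ℤ) ≤ j := by exact_mod_cast (by omega : 2 ≤ j)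
      nlinarith
    have h2 := hm _ ⟨z, hz⟩ hχ
    rw [map_nsmul, nsmul_eq_mul] at h2
    have h3 : (2 : ℤ) ≤ j := by exact_mod_cast (by omega : 2 ≤ j)
    nlinarith
  intro z j j' hj hj' h1 h2
  rw [key z j hj h1, key z j' hj' h2]

variable [GradedAlgebra 𝒜]

/-- (P1) -/
theorem no_opp (H : Hyp 𝒜) {χ : Fin r → ℤ} (hs : Sep 𝒜 χ) {q : FP 𝒜} (h1 : q.Pi χ)
    (h2 : q.Pi (-χ)) : False := by
  obtain ⟨z, n, φ, hφ⟩ := exists_curve_main H q h2 (fun y' j j' hj hj' h3 h4 =>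
    hs y' j j' hj hj' (by rwa [smul_neg, neg_neg] at h3) (by rwa [smul_neg, neg_neg] at h4))
  obtain ⟨φ', hφ', -⟩ := exists_rev H hφ
  rw [neg_neg] at hφ'
  obtain ⟨t, ht, htw, htne⟩ := h1
  obtain ⟨δ, hδ, hδ1, hδ2⟩ := exists_lift H hφ' ht htw
  obtain ⟨c, hc⟩ := der_dir H hφ' hδ (fun d m h hh hne => by
      obtain ⟨i, -, hm, hc⟩ := hδ1 d m h hh hne
      exact ⟨i, hm, hc⟩) (by
    intro k hk hpi
    have h3 : z.Pi ((k + 1) • χ) := by
      have h4 : (k + 1) • χ = χ + (k : ℤ) • χ := by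
        rw [succ_nsmul, natCast_zsmul, add_comm]
      rw [h4]
      exact hpi
    have h5 : z.Pi (1 • χ) := by
      rw [one_smul]
      exact hφ'.ya
    have := hs z (k + 1) 1 (by omega) le_rfl h3 h5
    omega)
  obtain ⟨d, m, h, hh, h3⟩ := htne 0
  rw [zero_mul, zero_mul] at h3
  apply h3
  rw [← hδ2 d m h hh, hc, Polynomial.coeff_C_mul, Polynomial.coeff_derivative]
  obtain ⟨i, hi, -, e, he⟩ := form hφ' hh
  rw [he, Polynomial.coeff_C_mul_X_pow, if_neg (by omega), zero_mul, mul_zero]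

/-- (P2) -/
theorem no_opp_two (H : Hyp 𝒜) {ε : Fin r → ℤ} (hs : Sep 𝒜 ε) {q : FP 𝒜} (h1 : q.Pi (2 • ε))
    (h2 : q.Pi (-ε)) : False := by
  classical
  obtain ⟨z, n, φ, hφ⟩ := exists_curve_main H q h2 (fun y' j j' hj hj' h3 h4 =>
    hs y' j j' hj hj' (by rwa [smul_neg, neg_neg] at h3) (by rwa [smul_neg, neg_neg] at h4))
  obtain ⟨φ', hφ', -⟩ := exists_rev H hφ
  rw [neg_neg] at hφ'
  have hε := ne_zero_of_curve H hφ'
  obtain ⟨t, ht, htw, htne⟩ := h1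
  obtain ⟨δ, hδ, hδ1, hδ2⟩ := exists_lift H hφ' ht htw
  have hdeg : ∀ d m, ∀ h ∈ 𝒜 (d, m), δ h ≠ 0 → ∃ i : ℕ, m = d • z.ν + i • ε + 2 • ε ∧
      ∃ c : ℂ, δ h = Polynomial.C c * Polynomial.X ^ i := by
    intro d m h hh hne
    obtain ⟨i, -, hm, hc⟩ := hδ1 d m h hh hne
    exact ⟨i, hm, hc⟩
  have hex : ∃ k, ∃ h, (δ h).coeff k ≠ 0 := by
    obtain ⟨d, m, h, hh, h3⟩ := htne 0
    rw [zero_mul, zero_mul] at h3
    exact ⟨d * n, h, by rw [hδ2 d m h hh]; exact h3⟩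
  have hk := Nat.find_spec hex
  have hmin : ∀ h, ∀ i < Nat.find hex, (δ h).coeff i = 0 := by
    intro h i hi
    have := Nat.find_min hex hi
    push Not at this
    exact this h
  generalize Nat.find hex = k at hk hmin
  obtain ⟨g, hg⟩ := hk
  have e1 : 2 • ε + (k : ℤ) • ε = (k + 2) • ε := by
    rw [natCast_zsmul, ← add_smul, add_comm]
  have hpi : z.Pi ((k + 2) • ε) := by
    rw [← e1]
    refine tangentWeight_of_ne z.fix (by rw [e1]; exact smul_ne_zero (by omega) hε)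
      (along_tangent hφ'.ev hδ hmin) (along_weight hdeg k) ?_
    intro h0
    exact hg (LinearMap.congr_fun h0 g)
  have := hs z (k + 2) 1 (by omega) le_rfl hpi (by rw [one_smul]; exact hφ'.ya)
  omega

end Vale.Agent.P280.H63W
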