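import Vale.Agent.P280.N.C04
import Vale.Agent.P280.H63W.C01
import Vale.Agent.P280.H63W.C03
import Vale.Agent.P280.H63W.P1
import Vale.Agent.P280.H63W.Defs
open DirectSum Vale.Agent.P280.T Vale.Agent.P280.H127

namespace Vale.Agent.P280.H63W

open Vale.Agent.P280.N

variable {r : ℕ} {R : Type} [CommRing R] [IsDomain R] [Algebra ℂ R]
  {𝒜 : ℕ × (Fin r → ℤ) → Submodule ℂ R} [GradedAlgebra 𝒜]

/-- The brackets with a derivation of weight zero are multiples. -/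
theorem C04.bracket_zero (H : Hyp 𝒜) {χ : Fin r → ℤ} (hχ : Vx 𝒜 χ) {D0 D : Derivation ℂ R R}
    (hD0 : ∀ d m, ∀ h ∈ 𝒜 (d, m), D0 h ∈ 𝒜 (d, m)) (hD : H93.IsHField 𝒜 χ D) (hne : D ≠ 0) :
    ∃ κ : ℂ, ∀ h, ⁅D0, D⁆ h = κ • D h := by
  obtain ⟨E1, h1, h2, h3, h4, h5⟩ := c03_exists H hχ
  obtain ⟨k1, hk1⟩ := h5 (toVF D) (toVF_glob D) (hv_toVF hD)
  have hk0 : k1 ≠ 0 := by
    rintro rfl
    apply hne
    rw [zero_smul] at hk1
    ext h
    have h6 := congrArg (fun v : VF R => v (iK h)) hk1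
    change toVF D (iK h) = 0 at h6
    rw [toVF_iK, iK_eq_zero] at h6
    exact h6
  have hbr : H93.IsHField 𝒜 χ ⁅D0, D⁆ := by
    intro d m h hh
    rw [Derivation.commutator_apply]
    exact Submodule.sub_mem _ (hD0 _ _ _ (hD d m h hh)) (hD _ _ _ (hD0 d m h hh))
  obtain ⟨k2, hk2⟩ := h5 (toVF ⁅D0, D⁆) (toVF_glob _) (hv_toVF hbr)
  refine ⟨k2 * k1⁻¹, fun h => ?_⟩
  apply iK_inj
  rw [← toVF_iK, hk2, iK_smul, ← toVF_iK, hk1, ← smul_smul]
  change k2 • E1 (iK h) = k2 • (k1⁻¹ • (k1 • E1 (iK h)))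
  rw [inv_smul_smul₀ hk0]

/-- C04. The bracket of the two fields. -/
theorem vertex_bracket (H : Hyp 𝒜) {χ : Fin r → ℤ} (hχ : Vx 𝒜 χ) {E F : VF R} (hE : Glob E)
    (hF : Glob F) (hEv : HV 𝒜 χ E) (hFv : HV 𝒜 (-χ) F) (hE0 : E ≠ 0) (hF0 : F ≠ 0)
    (hEat : ∀ y : FP 𝒜, y.Pi χ → ¬ ValV y.q E 0)
    (hFat : ∀ y : FP 𝒜, y.Pi (-χ) → ¬ ValV y.q F 0) :
    ∃ (N : ℤ) (s : ℂ) (β : (Fin r → ℤ) →+ ℤ) (α : ℂ), 0 < N ∧ s ≠ 0 ∧ β χ = 2 * N ∧
      ∀ d m, ∀ h ∈ 𝒜 (d, m), ⁅E, s • F⁆ (iK h) = -(((d : ℂ) * α + (β m : ℂ)) • iK h) := by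
  obtain ⟨De, rfl, hDe⟩ := hE.exists_hder hEv
  obtain ⟨Df, rfl, hDf⟩ := hF.exists_hder hFv
  have hχV := hχ
  obtain ⟨⟨y, hy⟩, l, hl, -⟩ := hχ
  have hχ0 : χ ≠ 0 := by
    rintro rfl
    rw [map_zero] at hl
    exact lt_irrefl _ hl
  have hvz : ∀ D : Derivation ℂ R R, toVF D ≠ 0 → D ≠ 0 := by
    rintro D h0 rfl
    apply h0
    refine vf_eq_zero_hom (𝒜 := 𝒜) fun d m a _ => ?_
    rw [toVF_iK]
    exact iK_zero
  have hDe0 := hvz De hE0
  have hDf0 := hvz Df hF0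
  have hpres : ∀ d m, ∀ h ∈ 𝒜 (d, m), ⁅Df, De⁆ h ∈ 𝒜 (d, m) := by
    intro d m h hh
    rw [Derivation.commutator_apply]
    have h1 := hDf _ _ _ (hDe d m h hh)
    have h2 := hDe _ _ _ (hDf d m h hh)
    rw [sub_neg_eq_add, sub_add_cancel] at h1
    rw [sub_neg_eq_add, add_sub_cancel_right] at h2
    exact Submodule.sub_mem _ h1 h2
  -- the bracket is diagonal, or nilpotent
  obtain ⟨α0, β0, hT⟩ := H.tor ⁅Df, De⁆ hpres
  obtain ⟨κ, hκ⟩ := C04.bracket_zero H hχV hpres hDe hDe0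
  obtain ⟨κ', hκ'⟩ := C04.bracket_zero H (c03_vx_neg H hχV) hpres hDf hDf0
  have hnot : ¬ y.Pi (-χ) := by
    intro h1
    exact no_opp H (sep_of_vx hχV) hy h1
  have hFy : ∀ h, y.q (Df h) = 0 := H224.field_vanish y.fix (neg_ne_zero.2 hχ0) hDf hnot
  have hEy : ∃ h, y.q (De h) ≠ 0 := by
    by_contra hcon
    push Not at hcon
    refine hEat y hy fun h => ?_
    rw [toVF_iK, LinearMap.zero_apply, ← hcon h]
    exact Val.iK _
  obtain ⟨hβ, h0⟩ : β0 χ ≠ 0 ∧ ∀ (d : ℕ) (m : Fin r → ℤ), ∀ h ∈ 𝒜 (d, m),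
      ⁅Df, De⁆ h = ((d : ℂ) * α0 + β0 m) • h := by
    rcases H224.weak_cases H.hX hDe hDf hl hT hκ hκ' hDe0 hDf0 with h1 | ⟨-, hnil, hcomm⟩
    · exact h1
    exfalso
    -- the bracket vanishes at `y`
    have hH0 : ∀ h, y.q (⁅Df, De⁆ h) = 0 := by
      have hf0 : H93.IsHField 𝒜 0 ⁅Df, De⁆ := fun d m h hh => by
        rw [sub_zero]
        exact hpres d m h hh
      obtain ⟨c, hc⟩ : ∃ c : ℂ, ∀ (d : ℕ) (m : Fin r → ℤ), ∀ h ∈ 𝒜 (d, m),
          y.q (⁅Df, De⁆ h) = c * d * y.q h := by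
        by_contra hcon
        push Not at hcon
        exact H.iso y.q y.ν y.nv y.fix ⟨_, H224.isTangent_value y.q ⁅Df, De⁆,
          H224.hasWeight_value y.fix hf0, hcon⟩
      obtain ⟨f, hf, hfne⟩ := exists_deg_one_ne H.hX.gen y.nv y.fix
      obtain ⟨n, hn⟩ := hnil 1 y.ν f hf
      have h2 : ∀ n : ℕ, (⇑⁅Df, De⁆)^[n] f ∈ 𝒜 (1, y.ν) ∧
          y.q ((⇑⁅Df, De⁆)^[n] f) = c ^ n * y.q f := by
        intro n
        induction n with
        | zero => exact ⟨hf, by simp⟩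
        | succ n ih =>
          rw [Function.iterate_succ_apply']
          refine ⟨hpres _ _ _ ih.1, ?_⟩
          rw [hc 1 _ _ ih.1, ih.2, Nat.cast_one, pow_succ]
          ring
      have h3 := (h2 n).2
      rw [hn, map_zero] at h3
      have h4 : c = 0 := by
        by_contra h5
        exact mul_ne_zero (pow_ne_zero n h5) hfne h3.symm
      have key : y.q.toLinearMap.comp ((⁅Df, De⁆ : Derivation ℂ R R) : R →ₗ[ℂ] R) = 0 := by
        apply linearMap_ext_graded 𝒜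
        rintro ⟨d, m⟩ h hh
        change y.q (⁅Df, De⁆ h) = 0
        rw [hc d m h hh, h4, zero_mul, zero_mul]
      intro h
      exact LinearMap.congr_fun key h
    -- `F` vanishes along the orbit
    have hiter : ∀ (k : ℕ) (h : R), (⇑De)^[k + 1] (Df h) =
        Df ((⇑De)^[k + 1] h) - ((k : ℂ) + 1) • ⁅Df, De⁆ ((⇑De)^[k] h) := by
      intro k h
      induction k with
      | zero =>
        change De (Df h) = Df (De h) - _ • ⁅Df, De⁆ h
        rw [Nat.cast_zero, zero_add, one_smul, Derivation.commutator_apply]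
        abel
      | succ k ih =>
        rw [Function.iterate_succ_apply', ih, map_sub, De.map_smul, ← hcomm,
          ← Function.iterate_succ_apply' De]
        have h2 : De (Df ((⇑De)^[k + 1] h)) = Df ((⇑De)^[k + 1 + 1] h) -
            ⁅Df, De⁆ ((⇑De)^[k + 1] h) := by
          rw [Derivation.commutator_apply, Function.iterate_succ_apply' De (k + 1)]
          abel
        rw [h2]
        push_cast
        module
    have hk : ∀ (k : ℕ) (h : R), y.q ((⇑De)^[k] (Df h)) = 0 := by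
      intro k h
      cases k with
      | zero => exact hFy h
      | succ k => rw [hiter, map_sub, hFy, map_smul, hH0, smul_zero, sub_zero]
    obtain ⟨p, μ, hp0, hp, hpw, hpF⟩ := H224.exists_limit_iter H.hX y.nv y.fix hDe hDf hl hk hEy
    refine hFat ⟨p, μ, hp0, hp⟩ hpw fun h => ?_
    rw [toVF_iK, LinearMap.zero_apply, ← hpF h]
    exact Val.iK _
  let b : (Fin r → ℤ) →+ ℂ :=
    (AddMonoidHom.mulLeft (2 / (l χ : ℂ))).comp ((Int.castAddHom ℂ).comp l)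
  have hla : (l χ : ℂ) ≠ 0 := by exact_mod_cast hl.ne'
  have hb : b χ = 2 := by
    change 2 / (l χ : ℂ) * (l χ : ℂ) = 2
    field_simp
  have heig : ∀ (d : ℕ) (m : Fin r → ℤ), ∀ h ∈ 𝒜 (d, m), h ≠ 0 →
      ∃ n : ℤ, (d : ℂ) * α0 + β0 m = n * (β0 χ / 2) :=
    fun d m h hh hne => H224.eigen H.hX hDe hDf hb h0 hh hne
  -- rationality
  obtain ⟨π, hπ⟩ := C04.exists_proj
  have hπ2 : ∀ n : ℤ, π (n : ℂ) = n := by
    intro n
    have := hπ (n : ℚ)
    rwa [Rat.cast_intCast] at this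
  have ht : β0 χ / 2 ≠ 0 := div_ne_zero hβ two_ne_zero
  set t := β0 χ / 2 with htdef
  let β1 : (Fin r → ℤ) →+ ℚ :=
    π.toAddMonoidHom.comp ((AddMonoidHom.mulLeft (t⁻¹)).comp β0)
  have hβ1 : ∀ m, β1 m = π (t⁻¹ * β0 m) := fun m => rfl
  obtain ⟨N, β, hN, hβN⟩ := C04.exists_int β1
  have hNC : (N : ℂ) ≠ 0 := by exact_mod_cast hN.ne'
  refine ⟨N, N / t, β, N * (π (t⁻¹ * α0) : ℚ), hN, div_ne_zero hNC ht, ?_, ?_⟩
  · have h1 := hβN χ
    have h2 : t⁻¹ * β0 χ = ((2 : ℤ) : ℂ) := by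
      rw [htdef]
      field_simp
      norm_num
    rw [hβ1, h2, hπ2] at h1
    have h3 : ((β χ : ℤ) : ℚ) = ((N * 2 : ℤ) : ℚ) := by
      rw [h1]
      push_cast
      ring
    have h4 : β χ = N * 2 := by exact_mod_cast h3
    rw [h4]
    ring
  · intro d m h hh
    by_cases hne : h = 0
    · rw [hne, iK_zero, map_zero, smul_zero, neg_zero]
    obtain ⟨n, hn⟩ := heig d m h hh hne
    have h1 : t⁻¹ * ((d : ℂ) * α0 + β0 m) = n := by
      rw [hn, mul_comm, mul_assoc, mul_inv_cancel₀ ht, mul_one]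
    have h2 : (d : ℚ) * π (t⁻¹ * α0) + β1 m = n := by
      rw [hβ1, ← hπ2 n, ← h1]
      have h3 : t⁻¹ * ((d : ℂ) * α0 + β0 m) = (d : ℚ) • (t⁻¹ * α0) + t⁻¹ * β0 m := by
        rw [Rat.smul_def]
        push_cast
        ring
      rw [h3, map_add, map_smul, smul_eq_mul]
    have h4 : ((d : ℂ) * (N * (π (t⁻¹ * α0) : ℚ)) + (β m : ℂ)) = N * n := by
      have h5 : (β m : ℂ) = ((β m : ℚ) : ℂ) := by rw [Rat.cast_intCast]
      rw [h5, hβN m]
      have h6 : ((n : ℚ) : ℂ) = (d : ℂ) * (π (t⁻¹ * α0) : ℚ) + ((β1 m : ℚ) : ℂ) := by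
        rw [← h2]
        push_cast
        ring
      rw [Rat.cast_intCast] at h6
      rw [h6]
      push_cast
      ring
    rw [h4]
    have h7 : ⁅toVF De, (N / t : ℂ) • toVF Df⁆ (iK h) = (N / t : ℂ) • ⁅toVF De, toVF Df⁆ (iK h) := by
      rw [Derivation.commutator_apply, Derivation.commutator_apply, Derivation.smul_apply,
        Derivation.smul_apply, Derivation.map_smul, ← smul_sub]
    have h8 : ⁅De, Df⁆ h = -(((d : ℂ) * α0 + β0 m) • h) := by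
      rw [← h0 d m h hh, Derivation.commutator_apply, Derivation.commutator_apply, neg_sub]
    rw [h7, ← toVF_lie, toVF_iK, h8, iK_neg, iK_smul, smul_neg, smul_smul, hn]
    congr 2
    field_simp

end Vale.Agent.P280.H63W
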