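import Vale.Agent.P280.H989.Chain
import Vale.Agent.P280.H63W.D02
import Vale.Agent.P280.H63W.Defs
open DirectSum Vale.Agent.P280.T Vale.Agent.P280.H127
namespace Vale.Agent.P280.H63W

open Vale.Agent.P280.N Vale.Agent.P280.N.H989

variable {r : ℕ} {R : Type} [CommRing R] [IsDomain R] [Algebra ℂ R]
  {𝒜 : ℕ × (Fin r → ℤ) → Submodule ℂ R} [GradedAlgebra 𝒜]

omit [IsDomain R] in
theorem vx_finite (H : Hyp 𝒜) : {χ : Fin r → ℤ | Vx 𝒜 χ}.Finite :=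
  (C07.wt_finite H).subset fun _ h => h.1

/-- The vertices, as a finite set. -/
noncomputable def VV (H : Hyp 𝒜) : Finset (Fin r → ℤ) := (vx_finite H).toFinset

theorem mem_VV (H : Hyp 𝒜) {χ : Fin r → ℤ} : χ ∈ VV H ↔ Vx 𝒜 χ := by
  simp [VV]

theorem exists_root_data (H : Hyp 𝒜) : ∃ (N : ℤ) (b : (Fin r → ℤ) → ((Fin r → ℤ) →+ ℤ))
    (E F : (Fin r → ℤ) → VF R), 0 < N ∧ ∀ χ, Vx 𝒜 χ → Root 𝒜 N χ (b χ) (E χ) (F χ) := by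
  classical
  obtain ⟨N, β, E, F, hN, hr⟩ := exists_roots H (ι := {χ : Fin r → ℤ // χ ∈ VV H})
    (fun χ => χ.1) (fun χ => (mem_VV H).1 χ.2)
  refine ⟨N, fun χ => if h : χ ∈ VV H then β ⟨χ, h⟩ else 0,
    fun χ => if h : χ ∈ VV H then E ⟨χ, h⟩ else 0,
    fun χ => if h : χ ∈ VV H then F ⟨χ, h⟩ else 0, hN, fun χ hχ => ?_⟩
  have h := (mem_VV H).2 hχ
  simpa [h] using hr ⟨χ, h⟩

theorem exists_RS (H : Hyp 𝒜) {N : ℤ} {b : (Fin r → ℤ) → ((Fin r → ℤ) →+ ℤ)}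
    {E F : (Fin r → ℤ) → VF R} (hN : 0 < N)
    (hr : ∀ χ, Vx 𝒜 χ → Root 𝒜 N χ (b χ) (E χ) (F χ)) :
    RS (VV H) {ω | Wt 𝒜 ω} b N where
  N0 := hN
  two χ hχ := (hr χ ((mem_VV H).1 hχ)).two
  dvd χ hχ ω hω := (hr χ ((mem_VV H).1 hχ)).int ω hω
  bd χ hχ ω hω h1 h2 := by
    exact (hr χ ((mem_VV H).1 hχ)).bd ω hω h1 h2
  sub χ hχ := ((mem_VV H).1 hχ).1
  refl χ hχ ψ hψ k hk :=
    (mem_VV H).2 (reflect_vertex H hN ((mem_VV H).1 hχ) (hr χ ((mem_VV H).1 hχ))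
      ((mem_VV H).1 hψ) hk)
  ext g a ha hg ω hω := by
    obtain ⟨ω', hω', hmax⟩ := D02.exists_max H g ⟨ω, hω⟩
    by_contra hcon
    push Not at hcon
    have h1 : 0 < g ω' := lt_of_le_of_lt ha (lt_of_lt_of_le hcon (hmax ω hω))
    obtain ⟨χ, hχ, hχ1, -⟩ := max_at_vertex H g h1 hmax ⟨ω', hω', rfl⟩ 0
    have h2 := hg χ ((mem_VV H).2 hχ)
    have h3 := hmax ω hω
    linarith

end Vale.Agent.P280.H63W
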