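import Vale.Agent.P280.H746.Curve
import Vale.Agent.P280.H63W.CurvePt
import Vale.Agent.P280.H63W.Defs
open DirectSum Vale.Agent.P280.T Vale.Agent.P280.H127

namespace Vale.Agent.P280.H63W

open Vale.Agent.P280.N Vale.Agent.P280.H746

open Vale.Agent.P280.N

variable {r : ℕ} {R : Type} [CommRing R] [IsDomain R] [Algebra ℂ R]
  {𝒜 : ℕ × (Fin r → ℤ) → Submodule ℂ R} [GradedAlgebra 𝒜]

theorem exists_curve_main (H : Hyp 𝒜) (y : FP 𝒜) {a : Fin r → ℤ} (ha : y.Pi a)
    (hU : ∀ (y' : FP 𝒜) (j j' : ℕ), 1 ≤ j → 1 ≤ j' → y'.Pi (-(j • a)) → y'.Pi (-(j' • a)) →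
      j = j') :
    ∃ (y' : FP 𝒜) (n : ℕ) (φ : R →ₐ[ℂ] Polynomial ℂ), Curve y y' a n φ := by
  classical
  have ha0 := Pi_ne H ha
  obtain ⟨p, hp0, hp1, z, hz, hpz⟩ := exists_pt H y ha
  -- the point in terms of homogeneous elements
  have hpi : ∀ d m, ∀ h ∈ 𝒜 (d, m), p h ≠ 0 → ∃ i : ℕ, m = d • y.ν + i • a := by
    intro d m h hh hne
    by_contra hcon
    push Not at hcon
    refine hne (hp0 (m - d • y.ν) (fun i hi => hcon i ?_) h (mem_coarse hh ?_))
    · rw [← hi]; abel
    · rw [rl_apply, AddMonoidHom.id_apply]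
  have hpq : ∀ d, ∀ h ∈ 𝒜 (d, d • y.ν), p h = y.q h := by
    intro d h hh
    refine hp1 h (mem_coarse hh ?_)
    rw [rl_apply, AddMonoidHom.id_apply, sub_self]
  obtain ⟨dz, hz1, hhz, hpz1⟩ := exists_comp hz hpz
  obtain ⟨f, hf, hqf⟩ := exists_deg_one_ne H.hX.gen y.nv y.fix
  have hpf : p f ≠ 0 := by
    rw [hpq 1 f (by rw [one_smul]; exact hf)]
    exact hqf
  -- a functional positive on `a`
  obtain ⟨k0, hk0⟩ := Function.ne_iff.1 ha0
  set l : (Fin r → ℤ) →+ ℤ := (AddMonoidHom.mulLeft (a k0)).comp (Pi.evalAddMonoidHom _ k0) with hl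
  have hla : 0 < l a := by
    have : l a = a k0 * a k0 := rfl
    rw [this]
    exact mul_self_pos.mpr (by simpa using hk0)
  -- the degree of the curve
  set S1 : Set ℕ := {i | ∃ h ∈ 𝒜 (1, y.ν + i • a), p h ≠ 0} with hS1
  have hS1f : S1.Finite := by
    refine Set.Finite.of_finite_image ((finite_weights H.hX).subset ?_)
      (f := fun i : ℕ => y.ν + i • a) ?_
    · rintro _ ⟨i, ⟨h, hh, hne⟩, rfl⟩
      exact ⟨h, hh, fun h0 => hne (by rw [h0, map_zero])⟩
    · intro i _ j _ hij
      exact nsmul_inj' ha0 (add_left_cancel hij)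
  have hS1n : S1.Nonempty := ⟨0, f, by rw [zero_smul, add_zero]; exact hf, hpf⟩
  obtain ⟨n, ⟨g, hg, hpg⟩, hmax⟩ := Set.exists_max_image S1 id hS1f hS1n
  simp only [id] at hmax
  set ν' : Fin r → ℤ := y.ν + n • a with hν'
  have hle : ∀ d (i : ℕ), ∀ h ∈ 𝒜 (d, d • y.ν + i • a), p h ≠ 0 → i ≤ d * n := by
    intro d i h hh hne
    have h1 := slope_le H.hX.gen (-l) (-(l ν')) (RingHom.ker p) (by
      intro m h hh hne
      have hne' : p h ≠ 0 := fun h0 => hne (RingHom.mem_ker.mpr h0)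
      obtain ⟨i, hi⟩ := hpi 1 m h hh hne'
      rw [one_smul] at hi
      have h2 := hmax i ⟨h, hi ▸ hh, hne'⟩
      rw [hi, hν', AddMonoidHom.neg_apply, map_add, map_add, map_nsmul, map_nsmul]
      simp only [nsmul_eq_mul]
      have h3 : (i : ℤ) * l a ≤ (n : ℤ) * l a :=
        mul_le_mul_of_nonneg_right (by exact_mod_cast h2) hla.le
      linarith) d _ h hh (fun h0 => hne (RingHom.mem_ker.mp h0))
    rw [hν', AddMonoidHom.neg_apply] at h1
    simp only [map_add, map_nsmul] at h1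
    simp only [nsmul_eq_mul] at h1
    have h2 : (i : ℤ) * l a ≤ ((d * n : ℕ) : ℤ) * l a := by
      push_cast
      linarith
    exact_mod_cast le_of_mul_le_mul_right h2 hla
  have hn1 : 1 ≤ n := by
    have h1 := hle dz 1 hz1 (by rw [one_smul]; exact hhz) hpz1
    by_contra h0
    have : n = 0 := by omega
    rw [this, mul_zero] at h1
    omega
  have hdzn : 1 ≤ dz * n := hle dz 1 hz1 (by rw [one_smul]; exact hhz) hpz1
  -- the homomorphism
  set e : ℕ × (Fin r → ℤ) → ℕ := fun dm =>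
    if h : ∃ i : ℕ, dm.2 = dm.1 • y.ν + i • a then h.choose else 0 with he
  have hei : ∀ d (i : ℕ), e (d, d • y.ν + i • a) = i := by
    intro d i
    have hex : ∃ j : ℕ, d • y.ν + i • a = d • y.ν + j • a := ⟨i, rfl⟩
    have h1 : e (d, d • y.ν + i • a) = hex.choose := dif_pos hex
    rw [h1]
    have h2 := hex.choose_spec
    exact (nsmul_inj' ha0 (add_left_cancel h2)).symm
  obtain ⟨φ, hφ⟩ := exists_algHom 𝒜
    (fun dm => (Polynomial.monomial (R := ℂ) (e dm)).comp p.toLinearMap) (by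
      have h1 : e 0 = 0 := by
        have h2 := hei 0 0
        rw [zero_smul, zero_smul, add_zero] at h2
        exact h2
      simp only [LinearMap.comp_apply, AlgHom.toLinearMap_apply, map_one, h1]
      exact Polynomial.monomial_zero_one) (by
      rintro ⟨d, m⟩ ⟨d', m'⟩ x hx x' hx'
      simp only [LinearMap.comp_apply, AlgHom.toLinearMap_apply, map_mul,
        Polynomial.monomial_mul_monomial]
      by_cases h0 : p x * p x' = 0
      · rw [h0, map_zero, map_zero]
      · obtain ⟨i, hi⟩ := hpi d m x hx (left_ne_zero_of_mul h0)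
        obtain ⟨j, hj⟩ := hpi d' m' x' hx' (right_ne_zero_of_mul h0)
        have h1 : ((d, m) + (d', m') : ℕ × (Fin r → ℤ)) =
            (d + d', (d + d') • y.ν + (i + j) • a) := by
          rw [hi, hj, Prod.mk_add_mk, add_smul, add_smul]
          congr 1
          abel
        rw [h1, hei, hi, hj, hei, hei])
  have hφ' : ∀ d (i : ℕ), ∀ h ∈ 𝒜 (d, d • y.ν + i • a), φ h = Polynomial.monomial i (p h) := by
    intro d i h hh
    rw [hφ _ h hh]
    simp only [LinearMap.comp_apply, AlgHom.toLinearMap_apply, hei]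
  have hφ0 : ∀ d m, ∀ h ∈ 𝒜 (d, m), p h = 0 → φ h = 0 := by
    intro d m h hh h0
    rw [hφ _ h hh]
    simp only [LinearMap.comp_apply, AlgHom.toLinearMap_apply, h0, map_zero]
  -- the other end
  have hwν : ∀ d (i : ℕ), slopeHom (-l) (-(l ν')) (d, d • y.ν + i • a) =
      (((d * n : ℕ) : ℤ) - i) * l a := by
    intro d i
    rw [slopeHom_apply, hν', AddMonoidHom.neg_apply]
    simp only [map_add, map_nsmul]
    simp only [nsmul_eq_mul]
    push_cast
    ring
  obtain ⟨q', hq1, hq0⟩ := exists_limit 𝒜 p (slopeHom (-l) (-(l ν'))) (by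
    rintro ⟨d, m⟩ h hh hne
    obtain ⟨i, hi⟩ := hpi d m h hh hne
    have h1 := hle d i h (hi ▸ hh) hne
    rw [hi, hwν]
    refine mul_nonneg ?_ hla.le
    have : (i : ℤ) ≤ ((d * n : ℕ) : ℤ) := by exact_mod_cast h1
    linarith)
  have hq'1 : ∀ d, ∀ h ∈ 𝒜 (d, d • y.ν + (d * n) • a), q' h = p h := by
    intro d h hh
    refine hq1 _ h hh ?_
    rw [hwν, sub_self, zero_mul]
  have hq'2 : ∀ d m, ∀ h ∈ 𝒜 (d, m), q' h ≠ 0 → m = d • y.ν + (d * n) • a ∧ p h ≠ 0 := by
    intro d m h hh hne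
    have h1 : slopeHom (-l) (-(l ν')) (d, m) = 0 := by
      by_contra h1
      exact hne (hq0 _ h hh h1)
    have h2 := hq1 _ h hh h1
    have h3 : p h ≠ 0 := by rw [← h2]; exact hne
    obtain ⟨i, hi⟩ := hpi d m h hh h3
    rw [hi, hwν] at h1
    rcases mul_eq_zero.1 h1 with h4 | h4
    · have h5 : i = d * n := by
        have : (i : ℤ) = ((d * n : ℕ) : ℤ) := by linarith
        exact_mod_cast this
      exact ⟨by rw [hi, h5], h3⟩
    · exact absurd h4 hla.ne'
  have hdν : ∀ d : ℕ, d • ν' = d • y.ν + (d * n) • a := by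
    intro d
    rw [hν', smul_add, smul_smul]
  have hg' : q' g ≠ 0 := by
    rw [hq'1 1 g (by rw [one_smul, one_mul]; exact hg)]
    exact hpg
  set y' : FP 𝒜 := ⟨q', ν', fun hv => hg' (hv 1 _ one_pos g hg), fun d m h hh hne => by
    rw [hdν]; exact (hq'2 d m h hh hne).1⟩ with hy'
  have hy'q : y'.q = q' := rfl
  have hy'ν : y'.ν = ν' := rfl
  -- local analysis at `y'`
  have hF' := fix_of_isFixed y'.fix
  obtain ⟨n', u', wt', G', hn'⟩ := exists_params_T H.hX y'.nv hF'
  set ℬ' := coarse 𝒜 (rl (AddMonoidHom.id (Fin r → ℤ)) y'.ν) with hℬ'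
  have hneg : ∀ w, ∀ x ∈ ℬ' w, p x ≠ 0 → ∃ j : ℕ, w = -(j • a) := by
    intro w x hx hne
    obtain ⟨d, h, hh, hph⟩ := exists_comp hx hne
    obtain ⟨i, hi⟩ := hpi d _ h hh hph
    have h1 := hle d i h (hi ▸ hh) hph
    refine ⟨d * n - i, ?_⟩
    rw [hy'ν, hdν] at hi
    have h2 : (d * n) • a = (d * n - i) • a + i • a := by
      rw [← add_smul, Nat.sub_add_cancel h1]
    rw [h2] at hi
    have h3 : (d * n - i) • a + w = 0 := by
      have : d • y.ν + ((d * n - i) • a + i • a) + w = d • y.ν + i • a + ((d * n - i) • a + w) := by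
        abel
      rw [this] at hi
      exact left_eq_add.mp hi.symm
    exact eq_neg_of_add_eq_zero_right h3
  have hzero : ∀ x ∈ ℬ' 0, p x = q' x := by
    intro x hx
    refine coarse_induction (P := fun x => p x = q' x) (by rw [map_zero, map_zero])
      (fun a b ha hb => by rw [map_add, map_add, ha, hb]) ?_ hx
    rintro ⟨d, m⟩ hi h hh
    rw [rl_apply, AddMonoidHom.id_apply, sub_eq_zero, hy'ν, hdν] at hi
    exact (hq'1 d h (hi ▸ hh)).symm
  obtain ⟨s, hs0, hs1, hs⟩ := G'.gen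
  have hps : p s = 1 := by rw [hzero s hs0]; exact hs1
  -- the parameters of `y'` along the curve
  set T : ℕ → Prop := fun j => 1 ≤ j ∧ ∃ k, wt' k = -(j • a) ∧ p (u' k) ≠ 0 with hT
  set A : ℕ → Prop := fun j => ∃ x ∈ ℬ' (-(j • a)), p x ≠ 0 with hA
  have hna : ∀ j : ℕ, 1 ≤ j → -(j • a) ≠ 0 := by
    intro j hj h0
    have h1 : j • a = 0 • a := by rw [zero_smul]; exact neg_eq_zero.mp h0
    have := nsmul_inj' ha0 h1
    omega
  have hTu : ∀ j j', T j → T j' → j = j' := by
    rintro j j' ⟨hj, k, hk, -⟩ ⟨hj', k', hk', -⟩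
    have h1 : TangentWeight 𝒜 y'.q y'.ν (-(j • a)) := by
      rw [← hk]
      exact tangentWeight_of_wt H.hX y'.fix G' hn' (by rw [hk]; exact hna j hj)
    have h2 : TangentWeight 𝒜 y'.q y'.ν (-(j' • a)) := by
      rw [← hk']
      exact tangentWeight_of_wt H.hX y'.fix G' hn' (by rw [hk']; exact hna j' hj')
    exact hU y' j j' hj hj' h1 h2
  have hstep : ∀ j, 1 ≤ j → A j → ∃ j', T j' ∧ j' ≤ j ∧ A (j - j') := by
    rintro j hj ⟨x, hx, hpx⟩
    have hxm : x ∈ mx y'.q := mem_mx.mpr (hF' _ (hna j hj) x hx)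
    have hsx : s * x ∈ ℬ' (-(j • a)) := by
      have := SetLike.mul_mem_graded hs0 hx
      rwa [zero_add] at this
    obtain ⟨c, hc, hce⟩ := mem_span_hom G'.hom (hs x hxm) hsx
    have h1 : p (s * x) ≠ 0 := by rw [map_mul, hps, one_mul]; exact hpx
    rw [hce, map_sum] at h1
    obtain ⟨k, -, hk⟩ := Finset.exists_ne_zero_of_sum_ne_zero h1
    rw [map_mul] at hk
    have hk1 := left_ne_zero_of_mul hk
    have hk2 := right_ne_zero_of_mul hk
    obtain ⟨j', hj'⟩ := hneg _ _ (G'.hom k) hk2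
    obtain ⟨j'', hj''⟩ := hneg _ _ (hc k) hk1
    have hj'1 : 1 ≤ j' := by
      by_contra h0
      have h0' : j' = 0 := by omega
      rw [h0', zero_smul, neg_zero] at hj'
      have h2 := G'.hom k
      rw [hj'] at h2
      rw [hzero _ h2] at hk2
      exact hk2 (G'.zero k)
    have h3 : j = j' + j'' := by
      rw [hj'] at hj''
      have h4 : j • a = (j' + j'') • a := by
        rw [add_smul]
        have h5 : -(j • a) = -(j'' • a) - j' • a := by
          rw [← hj'']; abel
        have h6 := congrArg Neg.neg h5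
        rw [neg_neg] at h6
        rw [h6]; abel
      exact nsmul_inj' ha0 h4
    refine ⟨j', ⟨hj'1, k, hj', hk2⟩, by omega, c k, ?_, hk1⟩
    have h4 : j - j' = j'' := by omega
    rw [h4, ← hj'']
    exact hc k
  have hAdn : ∀ d (i : ℕ), ∀ h ∈ 𝒜 (d, d • y.ν + i • a), p h ≠ 0 → A (d * n - i) := by
    intro d i h hh hne
    refine ⟨h, mem_coarse hh ?_, hne⟩
    rw [rl_apply, AddMonoidHom.id_apply, hy'ν, hdν]
    have h1 := hle d i h hh hne
    have h2 : (d * n) • a = (d * n - i) • a + i • a := by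
      rw [← add_smul, Nat.sub_add_cancel h1]
    rw [h2]; abel
  have hAn : A n := by
    have h1 := hAdn 1 0 f (by rw [one_smul, zero_smul, add_zero]; exact hf) hpf
    rwa [one_mul, Nat.sub_zero] at h1
  have hAz : A (dz * n - 1) := hAdn dz 1 hz1 (by rw [one_smul]; exact hhz) hpz1
  obtain ⟨j0, hTj0, -, -⟩ := hstep n hn1 hAn
  have hdvd : ∀ j, A j → j0 ∣ j := by
    intro j
    induction j using Nat.strong_induction_on with
    | _ j ih =>
      intro hj
      rcases Nat.eq_zero_or_pos j with h0 | h0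
      · rw [h0]; exact dvd_zero _
      · obtain ⟨j', hTj', hle', hA'⟩ := hstep j h0 hj
        have h1 := hTu _ _ hTj' hTj0
        subst h1
        have h2 := ih (j - j') (by have := hTj'.1; omega) hA'
        have h3 : j = (j - j') + j' := by omega
        rw [h3]
        exact dvd_add h2 dvd_rfl
  have hj0 : j0 = 1 := by
    have h1 := (hdvd n hAn).mul_left dz
    have h2 := hdvd _ hAz
    have h3 : dz * n = (dz * n - 1) + 1 := by omega
    rw [h3] at h1
    exact Nat.dvd_one.mp ((Nat.dvd_add_right h2).mp h1)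
  obtain ⟨-, k1, hk1, hpk1⟩ := hTj0
  rw [hj0, one_smul] at hk1
  have hpia : y'.Pi (-a) := by
    have h1 := tangentWeight_of_wt H.hX y'.fix G' hn' (i := k1) (by
      rw [hk1]; exact neg_ne_zero.mpr ha0)
    rw [hk1] at h1
    exact h1
  refine ⟨y', n, φ, ⟨hn1, ha, hpia, rfl, ?_, ?_, ?_, ?_, ?_⟩⟩
  · intro d m h hh hne
    have hph : p h ≠ 0 := fun h0 => hne (hφ0 d m h hh h0)
    obtain ⟨i, hi⟩ := hpi d m h hh hph
    subst hi
    exact ⟨i, hle d i h hh hph, rfl, p h, by
      rw [hφ' d i h hh, Polynomial.C_mul_X_pow_eq_monomial]⟩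
  · have h1 : (Polynomial.aeval (0 : ℂ)).comp φ = y.q := by
      refine algHom_ext_hom 𝒜 ?_
      rintro ⟨d, m⟩ h hh
      rw [AlgHom.comp_apply]
      by_cases hph : p h = 0
      · rw [hφ0 d m h hh hph, map_zero]
        by_contra hne
        have hm := y.fix d m h hh (Ne.symm hne)
        subst hm
        exact hne (by rw [← hpq d h hh, hph])
      · obtain ⟨i, hi⟩ := hpi d m h hh hph
        subst hi
        rw [hφ' d i h hh, Polynomial.aeval_monomial]
        rcases Nat.eq_zero_or_pos i with h0 | h0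
        · subst h0
          rw [pow_zero, mul_one]
          rw [zero_smul, add_zero] at hh
          exact hpq d h hh
        · rw [zero_pow (by omega), mul_zero]
          by_contra hne
          have hm := y.fix d _ h hh (Ne.symm hne)
          have h2 : i • a = 0 • a := by
            rw [zero_smul]
            exact left_eq_add.mp hm.symm
          have := nsmul_inj' ha0 h2
          omega
    intro h
    rw [← h1, AlgHom.comp_apply, Polynomial.coe_aeval_eq_eval]
  · intro d m h hh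
    rw [hy'q]
    by_cases hph : p h = 0
    · rw [hφ0 d m h hh hph, Polynomial.coeff_zero]
      by_contra hne
      exact (hq'2 d m h hh (Ne.symm hne)).2 hph
    · obtain ⟨i, hi⟩ := hpi d m h hh hph
      subst hi
      rw [hφ' d i h hh, Polynomial.coeff_monomial]
      by_cases h0 : i = d * n
      · subst h0
        rw [if_pos rfl, hq'1 d h hh]
      · rw [if_neg h0]
        by_contra hne
        have h1 := (hq'2 d _ h hh (Ne.symm hne)).1
        exact h0 (nsmul_inj' ha0 (add_left_cancel h1))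
  · refine ⟨dz, hz1, hhz, ?_⟩
    rw [hφ' dz 1 hz1 (by rw [one_smul]; exact hhz), Polynomial.coeff_monomial, if_pos rfl]
    exact hpz1
  · have h1 := G'.hom k1
    rw [hk1] at h1
    obtain ⟨d, h, hh, hph⟩ := exists_comp h1 hpk1
    obtain ⟨i, hi⟩ := hpi d _ h hh hph
    have h2 : i + 1 = d * n := by
      rw [hy'ν, hdν] at hi
      have h3 : (i + 1) • a = (d * n) • a := by
        rw [succ_nsmul]
        have h4 : (d * n) • a + -a = i • a := by
          rw [add_assoc] at hi
          exact add_left_cancel hi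
        rw [← h4]; abel
      exact nsmul_inj' ha0 h3
    refine ⟨d, h, by rw [sub_eq_add_neg]; exact hh, ?_⟩
    rw [hφ' d i h (hi ▸ hh), Polynomial.coeff_monomial, if_pos (by omega)]
    exact hph

end Vale.Agent.P280.H63W
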