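import Vale.Agent.P280.H63W.Chain
import Vale.Agent.P280.H63W.P1
import Vale.Agent.P280.H989.ND

/-! P280, helper63, route W: the weights on a ray, and the hypotheses of plan N. -/

open DirectSum Vale.Agent.P280.T Vale.Agent.P280.H127

namespace Vale.Agent.P280.H63W

open Vale.Agent.P280.N Vale.Agent.P280.N.H989

variable {r : ℕ} {R : Type} [CommRing R] [IsDomain R] [Algebra ℂ R]
  {𝒜 : ℕ × (Fin r → ℤ) → Submodule ℂ R} [GradedAlgebra 𝒜]

/-- Two proportional weights: equal or one is twice the other, up to a sign. -/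
theorem dich (H : Hyp 𝒜) {ω ω' : Fin r → ℤ} (hω : Wt 𝒜 ω) (hω' : Wt 𝒜 ω') {a b : ℤ} (ha : a ≠ 0)
    (hab : a • ω = b • ω') :
    ω = ω' ∨ ω = -ω' ∨ ω' = 2 • ω ∨ ω' = -(2 • ω) ∨ ω = 2 • ω' ∨ ω = -(2 • ω') := by
  classical
  obtain ⟨N, β, E, F, hN, hr⟩ := exists_root_data H
  have hRS := exists_RS H hN hr
  have hω0 : ω ≠ 0 := by
    rintro rfl
    obtain ⟨y, hy⟩ := hω
    exact ne_zero_of_pi H hy rfl
  obtain ⟨χ, hχ, hχω⟩ : ∃ χ ∈ VV H, β χ ω ≠ 0 := by
    by_contra hcon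
    push Not at hcon
    exact hω0 (hRS.nd hcon fun g hg => hRS.ext0 g hg hω)
  have key : ∀ ψ, Wt 𝒜 ψ → β χ ψ ≠ 0 → ∃ k : ℤ, β χ ψ = N * k ∧
      (k = 1 ∨ k = -1 ∨ k = 2 ∨ k = -2) := by
    intro ψ hψ hne
    by_cases h1 : ψ = χ
    · exact ⟨2, by rw [h1, hRS.two χ hχ]; ring, by tauto⟩
    by_cases h2 : ψ = -χ
    · exact ⟨-2, by rw [h2, map_neg, hRS.two χ hχ]; ring, by tauto⟩
    obtain ⟨k, hk⟩ := hRS.dvd χ hχ ψ hψ
    have h3 := hRS.bd χ hχ ψ hψ h1 h2
    rw [hk, abs_le] at h3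
    have h4 : k ≤ 1 := by
      by_contra hc
      push Not at hc
      nlinarith [h3.2]
    have h5 : -1 ≤ k := by
      by_contra hc
      push Not at hc
      nlinarith [h3.1]
    have h6 : k ≠ 0 := by
      rintro rfl
      exact hne (by rw [hk, mul_zero])
    exact ⟨k, hk, by omega⟩
  have hb : β χ ω' ≠ 0 := by
    intro h0
    have h1 := congrArg (β χ) hab
    rw [map_zsmul, map_zsmul, h0, smul_zero, smul_eq_mul] at h1
    rcases mul_eq_zero.1 h1 with h2 | h2
    · exact ha h2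
    · exact hχω h2
  obtain ⟨k, hk, hk'⟩ := key ω hω hχω
  obtain ⟨k2, hk2, hk2'⟩ := key ω' hω' hb
  have h1 : a * k = b * k2 := by
    have h1 := congrArg (β χ) hab
    rw [map_zsmul, map_zsmul, hk, hk2, smul_eq_mul, smul_eq_mul] at h1
    apply mul_left_cancel₀ hN.ne'
    linear_combination h1
  have h2 : k2 • ω = k • ω' := by
    have h3 : a • (k2 • ω) = a • (k • ω') := by
      rw [smul_comm, hab, smul_smul, smul_smul, h1, mul_comm]
    exact (smul_right_injective _ ha) h3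
  have e2 : ∀ x : Fin r → ℤ, (2 : ℤ) • x = 2 • x := fun x => by
    rw [← natCast_zsmul]; rfl
  rcases hk' with rfl | rfl | rfl | rfl <;> rcases hk2' with rfl | rfl | rfl | rfl <;>
    simp only [neg_smul, one_smul, e2] at h2
  · exact Or.inl h2
  · exact Or.inr (Or.inl (by rw [← h2, neg_neg]))
  · exact Or.inr (Or.inr (Or.inl h2.symm))
  · exact Or.inr (Or.inr (Or.inr (Or.inl h2.symm)))
  · exact Or.inr (Or.inl h2)
  · exact Or.inl (neg_injective h2)
  · exact Or.inr (Or.inr (Or.inr (Or.inl (by rw [h2, neg_neg]))))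
  · exact Or.inr (Or.inr (Or.inl (neg_injective h2).symm))
  · exact Or.inr (Or.inr (Or.inr (Or.inr (Or.inl h2))))
  · exact Or.inr (Or.inr (Or.inr (Or.inr (Or.inr (by rw [← h2, neg_neg])))))
  · refine Or.inl ?_
    rw [← e2, ← e2] at h2
    exact smul_right_injective _ (two_ne_zero (α := ℤ)) h2
  · refine Or.inr (Or.inl ?_)
    rw [← e2, ← e2, ← smul_neg] at h2
    have := smul_right_injective _ (two_ne_zero (α := ℤ)) h2
    rw [← this, neg_neg]
  · exact Or.inr (Or.inr (Or.inr (Or.inr (Or.inr h2))))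
  · exact Or.inr (Or.inr (Or.inr (Or.inr (Or.inl (neg_injective h2)))))
  · refine Or.inr (Or.inl ?_)
    rw [← e2, ← e2, ← smul_neg] at h2
    exact smul_right_injective _ (two_ne_zero (α := ℤ)) h2
  · refine Or.inl ?_
    have h3 := neg_injective h2
    rw [← e2, ← e2] at h3
    exact smul_right_injective _ (two_ne_zero (α := ℤ)) h3

/-- Without doubles, there is at most one weight on each ray. -/
theorem sep_of_nd (H : Hyp 𝒜) (hd : ∀ (y : FP 𝒜) (ω : Fin r → ℤ), y.Pi ω → ¬ y.Pi (2 • ω))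
    (χ : Fin r → ℤ) : Sep 𝒜 χ := by
  intro z j j' hj hj' h1 h2
  have hχ : χ ≠ 0 := by
    rintro rfl
    rw [smul_zero] at h1
    exact ne_zero_of_pi H h1 rfl
  have hz : ∀ k : ℤ, k • χ = 0 → k = 0 := fun k hk => (smul_eq_zero.1 hk).resolve_right hχ
  have hc : ∀ n : ℕ, n • χ = (n : ℤ) • χ := fun n => (natCast_zsmul χ n).symm
  rcases dich H ⟨z, h1⟩ ⟨z, h2⟩ (a := j') (b := j) (by omega) (by
    rw [natCast_zsmul, natCast_zsmul, smul_smul, smul_smul, mul_comm]) with h | h | h | h | h | h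
  · rw [hc, hc] at h
    have h3 : ((j : ℤ) - j') • χ = 0 := by rw [sub_smul, h, sub_self]
    have := hz _ h3
    omega
  · exfalso
    rw [hc, hc] at h
    have h3 : ((j : ℤ) + j') • χ = 0 := by rw [add_smul, h, neg_add_cancel]
    have := hz _ h3
    omega
  · exfalso
    rw [h] at h2
    exact hd z _ h1 h2
  · exfalso
    rw [hc, hc, ← natCast_zsmul, smul_smul] at h
    have h3 : ((j' : ℤ) + (2 : ℕ) * j) • χ = 0 := by rw [add_smul, h, neg_add_cancel]
    have := hz _ h3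
    push_cast at this
    omega
  · exfalso
    rw [h] at h1
    exact hd z _ h2 h1
  · exfalso
    rw [hc, hc, ← natCast_zsmul, smul_smul] at h
    have h3 : ((j : ℤ) + (2 : ℕ) * j') • χ = 0 := by rw [add_smul, h, neg_add_cancel]
    have := hz _ h3
    push_cast at this
    omega

/-- The hypotheses of plan N. -/
theorem hypN (H : Hyp 𝒜) (hd : ∀ (y : FP 𝒜) (ω : Fin r → ℤ), y.Pi ω → ¬ y.Pi (2 • ω)) :
    N.Hyp 𝒜 where
  hX := H.hX
  hN := H.hN
  iso := H.iso
  mult := H.mult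
  tor := H.tor
  ind x ν ω ω' hx0 hx hω hω' hab := by
    obtain ⟨a, b, ha, -, hab⟩ := hab
    set y : FP 𝒜 := ⟨x, ν, hx0, hx⟩ with hy
    have h1 : y.Pi ω := hω
    have h2 : y.Pi ω' := hω'
    rcases dich H ⟨y, h1⟩ ⟨y, h2⟩ ha hab with h | h | h | h | h | h
    · exact h
    · rw [h] at h1
      exact (no_opp H (sep_of_nd H hd _) h2 h1).elim
    · rw [h] at h2
      exact absurd h2 (hd y _ h1)
    · refine (no_opp_two H (sep_of_nd H hd (-ω)) (q := y) ?_ ?_).elim
      · rw [smul_neg, ← h]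
        exact h2
      · rw [neg_neg]
        exact h1
    · rw [h] at h1
      exact absurd h1 (hd y _ h2)
    · refine (no_opp_two H (sep_of_nd H hd (-ω')) (q := y) ?_ ?_).elim
      · rw [smul_neg, ← h]
        exact h1
      · rw [neg_neg]
        exact h2

end Vale.Agent.P280.H63W
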