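import Vale.Agent.P280.H63W.Dich
import Vale.Agent.P280.N2.F2
import Vale.Agent.P280.N2.RealInt

/-! P280, helper63, route W: the theorem. -/

open DirectSum Vale.Agent.P280.T Vale.Agent.P280.H127

namespace Vale.Agent.P280.H63W

open Vale.Agent.P280.N Vale.Agent.P280.N2.F

variable {r : ℕ} {R : Type} [CommRing R] [Algebra ℂ R]
  {𝒜 : ℕ × (Fin r → ℤ) → Submodule ℂ R} [GradedAlgebra 𝒜]

theorem final (hX : IsTorusManifold 𝒜) (hN : NefOnRationalCurves 𝒜)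
    (hiso : ∀ x ν, ¬ IsVertex 𝒜 x → IsFixed 𝒜 x ν → ¬ TangentWeight 𝒜 x ν 0)
    (hmult : ∀ x ν ω, ¬ IsVertex 𝒜 x → IsFixed 𝒜 x ν → TangentWeight 𝒜 x ν ω →
      ∀ v v' : R →ₗ[ℂ] ℂ, IsTangent x v → HasWeight 𝒜 ν ω v → IsTangent x v' →
        HasWeight 𝒜 ν ω v' → ∃ c c' : ℂ, (c ≠ 0 ∨ c' ≠ 0) ∧ ∀ h, c * v h + c' * v' h = 0)
    (hdbl : ∀ x ν ω, ¬ IsVertex 𝒜 x → IsFixed 𝒜 x ν → TangentWeight 𝒜 x ν ω →
      ¬ TangentWeight 𝒜 x ν (2 • ω)) :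
    (∀ χ : Fin r → ℤ, Liftable 𝒜 χ) ∧ IsHomogeneousManifold 𝒜 ∧ IsTransitive 𝒜 := by
  obtain ⟨r', 𝒜', hg, π, hr, ht⟩ := exists_maxTor hX
  have hdom := hX.domain
  have H0 : H63W.Hyp 𝒜' :=
    { hX := ref_torusManifold hr hX
      hN := ref_nef hr hN
      iso := fun x ν' hx0 hx h => by
        have h1 := ref_weight hr h
        rw [map_zero] at h1
        exact hiso x (π ν') (fun h2 => hx0 ((ref_vertex hr).2 h2)) (ref_fixed hr hx) h1
      mult := fun x ν' ω hx0 hx hω v v' hv1 hv2 hv1' hv2' =>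
        hmult x (π ν') (π ω) (fun h2 => hx0 ((ref_vertex hr).2 h2)) (ref_fixed hr hx)
          (ref_weight hr hω) v v' hv1 (ref_hasWeight hr hv2) hv1' (ref_hasWeight hr hv2')
      tor := ht }
  have H : N.Hyp 𝒜' := hypN H0 fun y ω h1 h2 => by
    have h3 := ref_weight hr h1
    have h4 := ref_weight hr h2
    rw [map_nsmul] at h4
    exact hdbl y.q (π y.ν) _ (fun h => y.nv ((ref_vertex hr).2 h)) (ref_fixed hr y.fix) h3 h4
  have hI' : ∀ lam : Fin r' → ℤ, Wt 𝒜' lam →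
      (∀ l : (Fin r' → ℤ) →+ ℤ, 0 < l lam → ∃ ω, Wt 𝒜' ω ∧ l lam < l ω) → Liftable 𝒜' lam :=
    fun lam _ hint => liftable_of_real fun z hz => Vale.Agent.P280.N2.real_interior H hint z hz
  refine ⟨fun χ => ?_, ref_back hr (homogeneous_of_int H hI')⟩
  by_cases hχ0 : χ = 0
  · subst hχ0
    intro x ν hx0 hx hχ
    exact absurd hχ (hiso x ν hx0 hx)
  · exact H267.ref_liftable hr hX H.hX hiso hχ0 fun χ' _ => liftable_of_int H hI' χ'

end Vale.Agent.P280.H63W
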